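import Vale.Agent.P042.H438.DCd

/-! Density caps for even moments, with one extra site of large modulus (only pinned). -/

namespace Vale.Agent.P042.H104

open Finset Vale.Agent.P042.H779.Ab Vale.Agent.P042.H438
open Vale.Agent.P042.H956 (pin)
open Vale.Agent.P042.H858 (pf pt iv)
open Vale.Agent.P042.H685 (Deg)

set_option linter.unusedSectionVars false

section
variable {ι : Type*} [Fintype ι] [DecidableEq ι] {V : ι → Type*} [∀ i, Fintype (V i)]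
  [∀ i, DecidableEq (V i)]

/-- cap for the even moments of the degenerate sums over subsets of `I`, all pins -/
def DCdI (I : Finset ι) (u : ∀ i, V i → ℝ) (mu : (∀ i, V i) → ℝ) (dd : ℕ) (D : ℝ) : Prop :=
  ∀ Q U : Finset ι, U ⊆ I → Disjoint Q U → ∀ b : ∀ i, V i, ∀ T : Finset ι → (∀ i, V i) → ℝ,
    (∀ E, Loc E (T E)) → (∀ E, ∀ j ∈ E, Deg u j (T E)) → ∀ e k : ℕ, Q.card + 2 * k * e ≤ dd →
      ∑ x, pin u mu Q b x * (∑ E ∈ U.powersetCard e, T E x) ^ (2 * k)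
        ≤ Real.exp D * ∑ x, pw u x * (∑ E ∈ U.powersetCard e, T E x) ^ (2 * k)

lemma DCdI.of_univ {u : ∀ i, V i → ℝ} {mu : (∀ i, V i) → ℝ} {dd : ℕ} {D : ℝ}
    (h : DCd u mu dd D) (I : Finset ι) : DCdI I u mu dd D :=
  fun Q U _ hQU => h Q U hQU

lemma DCdI.mono {I J : Finset ι} {u : ∀ i, V i → ℝ} {mu : (∀ i, V i) → ℝ} {dd : ℕ} {D : ℝ}
    (h : DCdI J u mu dd D) (hIJ : I ⊆ J) : DCdI I u mu dd D :=
  fun Q U hU => h Q U (hU.trans hIJ)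

variable {q : ι → ℕ} {r : ∀ i, ℕ → V i}

/-- products of the moduli, one of them is large -/
lemma prod_le_o {o : ι} {Y m : ℕ} (hY1 : 1 ≤ Y) (hm1 : 1 ≤ m) (hY : ∀ i, i ≠ o → q i ≤ Y)
    (hm : q o ≤ m) (Q : Finset ι) : ∏ i ∈ Q, q i ≤ m * Y ^ Q.card := by
  by_cases ho : o ∈ Q
  · rw [← mul_prod_erase Q q ho]
    refine Nat.mul_le_mul hm ?_
    calc ∏ i ∈ Q.erase o, q i ≤ Y ^ (Q.erase o).card :=
          prod_le_pow_card _ _ _ fun i hi => hY i (ne_of_mem_erase hi)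
      _ ≤ Y ^ Q.card := Nat.pow_le_pow_right hY1 (card_le_card (erase_subset _ _))
  · calc ∏ i ∈ Q, q i ≤ Y ^ Q.card :=
          prod_le_pow_card _ _ _ fun i hi => hY i fun h => ho (h ▸ hi)
      _ ≤ m * Y ^ Q.card := Nat.le_mul_of_pos_left _ hm1

/-- the cap, only locality is needed; total degree `|Q| + k e ≤ dd`; the sets `E` are subsets
of `I`, the pinned moduli are at most `m Y^|Q|` -/
theorem dcd0_I (H : Rs q r) {nu : ℕ → ℝ} {A M : ℕ} {n0 D N : ℕ} {κ DD : ℝ}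
    (hD0 : 0 < D) (hκ : 0 ≤ κ) (hD : ∀ i, D.Coprime (q i))
    (hsupp : ∀ i < M, nu (A + i) ≠ 0 → ∃ j < N, A + i = n0 + D * j)
    (hcap : ∀ i < M, nu (A + i) ≤ κ) {I : Finset ι} {Y m dd : ℕ} (hY1 : 1 ≤ Y)
    (hY : ∀ i ∈ I, q i ≤ Y) (hQm : ∀ Q : Finset ι, ∏ i ∈ Q, q i ≤ m * Y ^ Q.card)
    (hN : 2 * ((m * Y ^ dd : ℕ) : ℝ) ^ 4 ≤ N) (hDD : 2 * κ * N ≤ Real.exp DD)
    {Q U : Finset ι} (hUI : U ⊆ I) (hQU : Disjoint Q U) (b : ∀ i, V i)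
    {T : Finset ι → (∀ i, V i) → ℝ}
    (hT : ∀ E, Loc E (T E)) {e k : ℕ} (hk : Q.card + k * e ≤ dd) :
    ∑ x, pin (uw q) (pf r nu A M) Q b x * (∑ E ∈ U.powersetCard e, T E x) ^ (2 * k)
      ≤ Real.exp DD * ∑ x, pw (uw q) x * (∑ E ∈ U.powersetCard e, T E x) ^ (2 * k) := by
  classical
  have hpol : Pol q (Y ^ e) (fun x => ∑ E ∈ U.powersetCard e, T E x) :=
    pol_card (fun i hi => hY i (hUI hi)) e hT
  have hind : ∀ i ∈ Q, Indep i (fun x => ∑ E ∈ U.powersetCard e, T E x) := by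
    intro i hi x a
    beta_reduce
    refine sum_congr rfl fun E hE => ?_
    have hiE : i ∉ E := fun h => disjoint_left.mp hQU hi ((mem_powersetCard.mp hE).1 h)
    exact (hT E).indep hiE x a
  have h1 := dc H hD0 hκ hD hsupp hcap Q b hpol hind k
  beta_reduce at h1
  have hE0 : 0 ≤ ∑ x, pw (uw q) x * (∑ E ∈ U.powersetCard e, T E x) ^ (2 * k) :=
    sum_nonneg fun x _ => mul_nonneg (pw_nn H.wt x) (by
      rw [pow_mul]; exact pow_nonneg (sq_nonneg _) _)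
  refine h1.trans (mul_le_mul_of_nonneg_right ?_ hE0)
  have h2 : (∏ i ∈ Q, q i) * (Y ^ e) ^ k ≤ m * Y ^ dd := by
    calc (∏ i ∈ Q, q i) * (Y ^ e) ^ k ≤ (m * Y ^ Q.card) * (Y ^ e) ^ k :=
          Nat.mul_le_mul_right _ (hQm Q)
      _ = m * Y ^ (Q.card + k * e) := by rw [← pow_mul, mul_assoc, ← pow_add, mul_comm e k]
      _ ≤ m * Y ^ dd := Nat.mul_le_mul_left _ (Nat.pow_le_pow_right hY1 hk)
  have h3 : (((∏ i ∈ Q, q i) * (Y ^ e) ^ k : ℕ) : ℝ) ≤ ((m * Y ^ dd : ℕ) : ℝ) := by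
    exact_mod_cast h2
  have h4 : 2 * (((∏ i ∈ Q, q i) * (Y ^ e) ^ k : ℕ) : ℝ) ^ 4 ≤ N := by
    refine le_trans ?_ hN
    have := pow_le_pow_left₀ (Nat.cast_nonneg _) h3 4
    linarith
  calc κ * (N + 2 * (((∏ i ∈ Q, q i) * (Y ^ e) ^ k : ℕ) : ℝ) ^ 4)
      ≤ κ * (N + N) := mul_le_mul_of_nonneg_left (by linarith) hκ
    _ = 2 * κ * N := by ring
    _ ≤ _ := hDD

/-- **(DC) with restricted legs**, literal form -/
theorem dcd_I (H : Rs q r) {nu : ℕ → ℝ} {A M : ℕ} {n0 D N : ℕ} {κ DD : ℝ}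
    (hD0 : 0 < D) (hκ : 0 ≤ κ) (hD : ∀ i, D.Coprime (q i))
    (hsupp : ∀ i < M, nu (A + i) ≠ 0 → ∃ j < N, A + i = n0 + D * j)
    (hcap : ∀ i < M, nu (A + i) ≤ κ) {I : Finset ι} {Y m dd : ℕ} (hY1 : 1 ≤ Y)
    (hY : ∀ i ∈ I, q i ≤ Y) (hQm : ∀ Q : Finset ι, ∏ i ∈ Q, q i ≤ m * Y ^ Q.card)
    (hN : 2 * ((m * Y ^ dd : ℕ) : ℝ) ^ 4 ≤ N) (hDD : 2 * κ * N ≤ Real.exp DD) :
    DCdI I (uw q) (pf r nu A M) dd DD := by
  intro Q U hUI hQU b T hT _ e k hk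
  exact dcd0_I H hD0 hκ hD hsupp hcap hY1 hY hQm hN hDD hUI hQU b hT
    (le_trans (by nlinarith [Nat.zero_le (k * e)]) hk)

/-- **(DC) with one extra site `o` of modulus at most `m`** -/
theorem dcd_o (H : Rs q r) {nu : ℕ → ℝ} {A M : ℕ} {n0 D N : ℕ} {κ DD : ℝ}
    (hD0 : 0 < D) (hκ : 0 ≤ κ) (hD : ∀ i, D.Coprime (q i))
    (hsupp : ∀ i < M, nu (A + i) ≠ 0 → ∃ j < N, A + i = n0 + D * j)
    (hcap : ∀ i < M, nu (A + i) ≤ κ) {o : ι} {Y m dd : ℕ} (hY1 : 1 ≤ Y)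
    (hY : ∀ i, i ≠ o → q i ≤ Y) (hm1 : 1 ≤ m) (hm : q o ≤ m)
    (hN : 2 * ((m * Y ^ dd : ℕ) : ℝ) ^ 4 ≤ N) (hDD : 2 * κ * N ≤ Real.exp DD) :
    DCdI (univ.erase o) (uw q) (pf r nu A M) dd DD :=
  dcd_I H hD0 hκ hD hsupp hcap hY1 (fun i hi => hY i (ne_of_mem_erase hi))
    (prod_le_o hY1 hm1 hY hm) hN hDD

end

end Vale.Agent.P042.H104
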