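import Mathlib

/-! Elementary symmetric functions by roots of unity, and the pointwise exponential bound. -/

namespace Vale.Agent.P042.H104

open Finset

section
variable {ι : Type*}

/-- elementary symmetric function of degree `m` of `(u i)_{i ∈ I}` -/
noncomputable def e0 (I : Finset ι) (m : ℕ) (u : ι → ℂ) : ℂ := ∑ E ∈ powersetCard m I, ∏ i ∈ E, u i

lemma sum_root {N : ℕ} {ξ : ℂ} (hξ : IsPrimitiveRoot ξ N) (e : ℕ) :
    ∑ k ∈ range N, (ξ ^ k) ^ e = if N ∣ e then (N : ℂ) else 0 := by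
  have h1 : ∀ k, (ξ ^ k) ^ e = (ξ ^ e) ^ k := fun k => by rw [← pow_mul, ← pow_mul, mul_comm]
  simp only [h1]
  split_ifs with h
  · have : ξ ^ e = 1 := (hξ.pow_eq_one_iff_dvd e).mpr h
    simp [this]
  · have h2 : ξ ^ e ≠ 1 := fun hc => h ((hξ.pow_eq_one_iff_dvd e).mp hc)
    have h3 := geom_sum_eq h2 N
    rw [h3, ← pow_mul, mul_comm e N, pow_mul, hξ.pow_eq_one, one_pow, sub_self, zero_div]

lemma e0_extract (I : Finset ι) (u : ι → ℂ) {m N : ℕ} (hm : m < N) (hN : I.card < N) (s : ℂ)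
    {ξ : ℂ} (hξ : IsPrimitiveRoot ξ N) :
    ∑ k ∈ range N, (ξ ^ k) ^ (N - m) * ∏ i ∈ I, (1 + s * ξ ^ k * u i)
      = N * (s ^ m * e0 I m u) := by
  have h1 : ∀ k, (ξ ^ k) ^ (N - m) * ∏ i ∈ I, (1 + s * ξ ^ k * u i)
      = ∑ E ∈ I.powerset, s ^ E.card * (∏ i ∈ E, u i) * (ξ ^ k) ^ (N - m + E.card) := by
    intro k
    rw [prod_one_add, mul_sum]
    refine sum_congr rfl fun E _ => ?_
    have : ∏ i ∈ E, (s * ξ ^ k * u i) = (s * ξ ^ k) ^ E.card * ∏ i ∈ E, u i := by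
      rw [prod_mul_distrib, prod_const]
    rw [this, mul_pow, pow_add]
    ring
  simp only [h1]
  rw [sum_comm]
  simp only [← mul_sum]
  rw [sum_congr rfl fun E (_ : E ∈ I.powerset) => by rw [sum_root hξ]]
  have h2 : ∀ E ∈ I.powerset, s ^ E.card * (∏ i ∈ E, u i) *
      (if N ∣ N - m + E.card then (N : ℂ) else 0)
      = if E.card = m then (N : ℂ) * (s ^ m * ∏ i ∈ E, u i) else 0 := by
    intro E hE
    have hc : E.card ≤ I.card := card_le_card (mem_powerset.mp hE)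
    by_cases h : E.card = m
    · have : N ∣ N - m + E.card := ⟨1, by omega⟩
      rw [if_pos this, if_pos h, h]; ring
    · have : ¬ N ∣ N - m + E.card := by
        rintro ⟨q, hq⟩
        have hlt : N * q < N * 2 := by omega
        have hq2 : q < 2 := lt_of_mul_lt_mul_left hlt (Nat.zero_le _)
        interval_cases q
        · omega
        · omega
      rw [if_neg this, if_neg h, mul_zero]
  rw [sum_congr rfl h2, ← sum_filter, ← powersetCard_eq_filter]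
  unfold e0
  rw [← mul_sum, ← mul_sum]

lemma norm_one_add_le (ζ : ℂ) : ‖1 + ζ‖ ≤ Real.exp (ζ.re + ‖ζ‖ ^ 2 / 2) := by
  have h1 : ‖1 + ζ‖ ^ 2 = 1 + (2 * ζ.re + ‖ζ‖ ^ 2) := by
    rw [Complex.sq_norm, Complex.sq_norm, Complex.normSq_apply, Complex.normSq_apply]
    simp
    ring
  have h2 : ‖1 + ζ‖ ^ 2 ≤ Real.exp (ζ.re + ‖ζ‖ ^ 2 / 2) ^ 2 := by
    rw [h1, ← Real.exp_nat_mul]
    have h3 := Real.add_one_le_exp (2 * ζ.re + ‖ζ‖ ^ 2)
    have h4 : ((2 : ℕ) : ℝ) * (ζ.re + ‖ζ‖ ^ 2 / 2) = 2 * ζ.re + ‖ζ‖ ^ 2 := by push_cast; ring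
    rw [h4]
    linarith
  exact le_of_sq_le_sq h2 (Real.exp_pos _).le

lemma e0_norm_le (I : Finset ι) (u : ι → ℂ) {B : ℝ} (hB : 0 ≤ B) (hu : ∀ i ∈ I, ‖u i‖ ≤ B) (m : ℕ) :
    ‖e0 I m u‖ ≤ (I.card * B) ^ m := by
  unfold e0
  calc ‖∑ E ∈ powersetCard m I, ∏ i ∈ E, u i‖ ≤ ∑ E ∈ powersetCard m I, ‖∏ i ∈ E, u i‖ :=
        norm_sum_le _ _
    _ ≤ ∑ _E ∈ powersetCard m I, B ^ m := by
        refine sum_le_sum fun E hE => ?_
        rw [mem_powersetCard] at hE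
        rw [norm_prod, ← hE.2, ← prod_const]
        exact prod_le_prod (fun i _ => norm_nonneg _) fun i hi => hu i (hE.1 hi)
    _ = (I.card.choose m) * B ^ m := by rw [sum_const, card_powersetCard, nsmul_eq_mul]
    _ ≤ (I.card : ℝ) ^ m * B ^ m := by
        refine mul_le_mul_of_nonneg_right ?_ (pow_nonneg hB m)
        exact_mod_cast Nat.choose_le_pow I.card m
    _ = _ := by rw [mul_pow]

/-- the pointwise exponential bound, truncated at the height `T` -/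
lemma e0_le_exp (I : Finset ι) (u : ι → ℂ) {m N : ℕ} (hm : m < N) (hN : I.card < N) {s : ℝ}
    (hs0 : 0 < s) (hs1 : s ≤ 1) {ξ : ℂ} (hξ : IsPrimitiveRoot ξ N) {B T : ℝ} (hB : 0 ≤ B)
    (hu : ∀ i ∈ I, ‖u i‖ ≤ B) (hT : N * (I.card * B) ^ m ≤ Real.exp T) :
    ‖e0 I m u‖ ≤ 2 * (1 / s) ^ m * ((1 / N) * ∑ k ∈ range N,
      Real.exp (min (∑ i ∈ I, ((s * ξ ^ k * u i).re + s ^ 2 * ‖u i‖ ^ 2 / 2)) T)) := by
  have hN0 : (0 : ℝ) < N := by
    have : 0 < N := by omega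
    exact_mod_cast this
  have hξn : ‖ξ‖ = 1 := hξ.norm'_eq_one (by omega)
  have hs1' : 1 ≤ (1 / s) ^ m := one_le_pow₀ (by rw [le_div_iff₀ hs0]; linarith)
  by_cases hG : ∀ k ∈ range N, ∑ i ∈ I, ((s * ξ ^ k * u i).re + s ^ 2 * ‖u i‖ ^ 2 / 2) ≤ T
  · have h1 : ‖(N : ℂ) * ((s : ℂ) ^ m * e0 I m u)‖ ≤ ∑ k ∈ range N,
        Real.exp (min (∑ i ∈ I, ((s * ξ ^ k * u i).re + s ^ 2 * ‖u i‖ ^ 2 / 2)) T) := by
      rw [← e0_extract I u hm hN (s : ℂ) hξ]
      refine (norm_sum_le _ _).trans (sum_le_sum fun k hk => ?_)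
      rw [min_eq_left (hG k hk), norm_mul, norm_pow, norm_pow, hξn, one_pow, one_pow, one_mul,
        norm_prod, Real.exp_sum]
      refine prod_le_prod (fun i _ => norm_nonneg _) fun i _ => ?_
      refine (norm_one_add_le _).trans (le_of_eq ?_)
      congr 2
      rw [norm_mul, norm_mul, norm_pow, hξn, one_pow, mul_one, Complex.norm_real,
        Real.norm_of_nonneg hs0.le, mul_pow]
    rw [norm_mul, norm_mul, norm_pow, Complex.norm_natCast, Complex.norm_real,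
      Real.norm_of_nonneg hs0.le] at h1
    have h2 : ‖e0 I m u‖ = (1 / s) ^ m * (1 / N * (N * (s ^ m * ‖e0 I m u‖))) := by
      rw [one_div, one_div, inv_pow]
      field_simp
    rw [h2]
    have h3 : 0 ≤ ∑ k ∈ range N,
        Real.exp (min (∑ i ∈ I, ((s * ξ ^ k * u i).re + s ^ 2 * ‖u i‖ ^ 2 / 2)) T) :=
      sum_nonneg fun k _ => (Real.exp_pos _).le
    have h4 : (1 / s) ^ m * (1 / N * (N * (s ^ m * ‖e0 I m u‖)))
        ≤ (1 / s) ^ m * (1 / N * ∑ k ∈ range N,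
        Real.exp (min (∑ i ∈ I, ((s * ξ ^ k * u i).re + s ^ 2 * ‖u i‖ ^ 2 / 2)) T)) :=
      mul_le_mul_of_nonneg_left (mul_le_mul_of_nonneg_left h1 (by positivity)) (by positivity)
    have h5 : 0 ≤ (1 / s) ^ m * (1 / N * ∑ k ∈ range N,
        Real.exp (min (∑ i ∈ I, ((s * ξ ^ k * u i).re + s ^ 2 * ‖u i‖ ^ 2 / 2)) T)) :=
      mul_nonneg (pow_nonneg (by positivity) m) (mul_nonneg (by positivity) h3)
    linarith
  · push Not at hG
    obtain ⟨k, hk, hkT⟩ := hG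
    have h1 : Real.exp T ≤ ∑ k ∈ range N,
        Real.exp (min (∑ i ∈ I, ((s * ξ ^ k * u i).re + s ^ 2 * ‖u i‖ ^ 2 / 2)) T) := by
      have := single_le_sum (f := fun k => Real.exp (min (∑ i ∈ I,
        ((s * ξ ^ k * u i).re + s ^ 2 * ‖u i‖ ^ 2 / 2)) T)) (fun k _ => (Real.exp_pos _).le) hk
      refine le_trans (le_of_eq ?_) this

      rw [min_eq_right hkT.le]
    have h2 := e0_norm_le I u hB hu m
    have h3 : ‖e0 I m u‖ ≤ 1 / N * ∑ k ∈ range N,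
        Real.exp (min (∑ i ∈ I, ((s * ξ ^ k * u i).re + s ^ 2 * ‖u i‖ ^ 2 / 2)) T) := by
      rw [one_div, inv_mul_eq_div, le_div_iff₀ hN0]
      calc ‖e0 I m u‖ * N ≤ (I.card * B) ^ m * N := mul_le_mul_of_nonneg_right h2 hN0.le
        _ = N * (I.card * B) ^ m := mul_comm _ _
        _ ≤ _ := hT.trans h1
    have h4 : 0 ≤ 1 / N * ∑ k ∈ range N,
        Real.exp (min (∑ i ∈ I, ((s * ξ ^ k * u i).re + s ^ 2 * ‖u i‖ ^ 2 / 2)) T) := by
      have : 0 ≤ ∑ k ∈ range N,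
        Real.exp (min (∑ i ∈ I, ((s * ξ ^ k * u i).re + s ^ 2 * ‖u i‖ ^ 2 / 2)) T) :=
        sum_nonneg fun k _ => (Real.exp_pos _).le
      positivity
    nlinarith

end

end Vale.Agent.P042.H104
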