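import Vale.Agent.P042.H482.Pins

/-! The Gibbs step: exponential moments of truncated additive functionals under a pinned law, from
the law-level energy increment inequality (individual rates, individual pin costs). -/

namespace Vale.Agent.P042.H104

open Finset Vale.Agent.P042.H779 Vale.Agent.P042.H779.Ab Vale.Agent.P042.H482

set_option linter.unusedSectionVars false

section
variable {ι : Type*} [Fintype ι] [DecidableEq ι] {V : ι → Type*} [∀ i, Fintype (V i)]
  [∀ i, DecidableEq (V i)] {w : ∀ i, V i → ℝ} {μ : (∀ i, V i) → ℝ}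

/-- the law-level energy increment inequality, individual rates `lam i`, cost of the pins `cost Q` -/
def EIc (w : ∀ i, V i → ℝ) (μ : (∀ i, V i) → ℝ) (ok : Finset ι → Prop) (lam : ι → ℝ)
    (cost : Finset ι → ℝ) (δ : ℝ) : Prop :=
  ∀ Q, ok Q → ∀ x, δ ≤ marg μ Q x → ∀ f : (∀ i, V i) → ℝ, (∀ y, 0 ≤ f y) → (∀ y, f y ≤ 1 / δ) →
    ce μ Q f x = 1 →
    ∑ i ∈ univ \ Q, lam i * ∑ b, w i b * phi (mi μ Q f i x b / w i b)
      ≤ ce μ Q (fun y => f y * Real.log (f y)) x + cost Q - Real.log (gdw w μ Q x)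

lemma EIc_of_EIp {ok : Finset ι → Prop} {lam gL a δ : ℝ} (h : EIp w μ ok lam gL a δ) :
    EIc w μ ok (fun _ => lam) (fun Q => gL * Q.card + a) δ := by
  intro Q hQ x hx f hf hf' h1
  have := h Q hQ x hx f hf hf' h1
  rw [← mul_sum]
  linarith

/-- Young's inequality for `phi`. -/
lemma young {r : ℝ} (hr : 0 ≤ r) (t : ℝ) : r * t ≤ phi r + (Real.exp t - 1) := by
  unfold phi
  rcases hr.eq_or_lt with rfl | hr
  · simp only [zero_mul, sub_zero, zero_add]
    have := Real.exp_pos t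
    linarith
  · have h1 : Real.exp t = r * Real.exp (t - Real.log r) := by
      rw [Real.exp_sub, Real.exp_log hr]; field_simp
    have h2 := Real.add_one_le_exp (t - Real.log r)
    have h3 := mul_le_mul_of_nonneg_left h2 hr.le
    rw [← h1] at h3
    nlinarith

/-- restricted expectation relative to the weights, `g_Q(x) E_{μ^x_Q} f` -/
noncomputable def gR (w : ∀ i, V i → ℝ) (μ : (∀ i, V i) → ℝ) (Q : Finset ι)
    (f : (∀ i, V i) → ℝ) (x : ∀ i, V i) : ℝ :=
  (∑ y, if (∀ i ∈ Q, y i = x i) then μ y * f y else 0) / ∏ i ∈ Q, w i (x i)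

lemma gR_eq (Q : Finset ι) (f : (∀ i, V i) → ℝ) {x : ∀ i, V i} (hx : 0 < marg μ Q x) :
    gR w μ Q f x = gdw w μ Q x * ce μ Q f x := by
  unfold gR gdw ce
  have := hx.ne'
  field_simp

lemma gR_mono (H : Ref w μ) (Q : Finset ι) {f f' : (∀ i, V i) → ℝ} (hff : ∀ y, f y ≤ f' y)
    (x : ∀ i, V i) : gR w μ Q f x ≤ gR w μ Q f' x := by
  unfold gR
  refine div_le_div_of_nonneg_right (sum_le_sum fun y _ => ?_)
    (prod_nonneg fun i _ => H.w_nonneg i _)
  split_ifs
  · exact mul_le_mul_of_nonneg_left (hff y) (H.prob.nonneg y)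
  · exact le_rfl

lemma gR_const_mul (Q : Finset ι) (c : ℝ) (f : (∀ i, V i) → ℝ) (x : ∀ i, V i) :
    gR w μ Q (fun y => c * f y) x = c * gR w μ Q f x := by
  unfold gR
  rw [mul_div_assoc', mul_sum]
  congr 1
  refine sum_congr rfl fun y _ => ?_
  split_ifs <;> ring

lemma gR_sum {κ : Type*} (s : Finset κ) (Q : Finset ι) (f : κ → (∀ i, V i) → ℝ) (x : ∀ i, V i) :
    gR w μ Q (fun y => ∑ k ∈ s, f k y) x = ∑ k ∈ s, gR w μ Q (f k) x := by
  unfold gR
  rw [← sum_div, sum_comm]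
  congr 1
  refine sum_congr rfl fun y _ => ?_
  split_ifs
  · rw [mul_sum]
  · simp

lemma ce_const_mul (Q : Finset ι) (c : ℝ) (f : (∀ i, V i) → ℝ) (x : ∀ i, V i) :
    ce μ Q (fun y => c * f y) x = c * ce μ Q f x := by
  unfold ce
  rw [mul_div_assoc', mul_sum]
  congr 1
  refine sum_congr rfl fun y _ => ?_
  split_ifs <;> ring

lemma ce_sum {κ : Type*} (s : Finset κ) (Q : Finset ι) (f : κ → (∀ i, V i) → ℝ) (x : ∀ i, V i) :
    ce μ Q (fun y => ∑ k ∈ s, f k y) x = ∑ k ∈ s, ce μ Q (f k) x := by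
  unfold ce
  rw [← sum_div, sum_comm]
  congr 1
  refine sum_congr rfl fun y _ => ?_
  split_ifs
  · rw [mul_sum]
  · simp

lemma ce_mono (h : IsProb μ) (Q : Finset ι) {f f' : (∀ i, V i) → ℝ} (hff : ∀ y, f y ≤ f' y)
    (x : ∀ i, V i) : ce μ Q f x ≤ ce μ Q f' x := by
  unfold ce
  refine div_le_div_of_nonneg_right (sum_le_sum fun y _ => ?_) (marg_nonneg h Q x)
  split_ifs
  · exact mul_le_mul_of_nonneg_left (hff y) (h.nonneg y)
  · exact le_rfl

lemma ce_congr (Q : Finset ι) {f f' : (∀ i, V i) → ℝ} (hff : ∀ y, f y = f' y)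
    (x : ∀ i, V i) : ce μ Q f x = ce μ Q f' x := by
  have : f = f' := funext hff
  rw [this]

/-- local linear statistics in terms of the one-coordinate marginals -/
lemma ce_loc1 (Q : Finset ι) (f : (∀ i, V i) → ℝ) (i : ι) (ψ : V i → ℝ) (x : ∀ i, V i) :
    ce μ Q (fun y => f y * ψ (y i)) x = ∑ b, mi μ Q f i x b * ψ b := by
  have h1 : ce μ Q (fun y => f y * ψ (y i)) x
      = ce μ Q (fun y => ∑ b, ψ b * (if y i = b then f y else 0)) x := by
    refine ce_congr Q (fun y => ?_) x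
    rw [sum_eq_single (y i)]
    · rw [if_pos rfl]; ring
    · intro b _ hb
      rw [if_neg fun hc => hb hc.symm, mul_zero]
    · intro hc; exact absurd (mem_univ _) hc
  rw [h1, ce_sum]
  refine sum_congr rfl fun b _ => ?_
  rw [ce_const_mul]
  unfold mi
  ring

lemma mi_nonneg (h : IsProb μ) (Q : Finset ι) {f : (∀ i, V i) → ℝ} (hf : ∀ y, 0 ≤ f y) (i : ι)
    (x : ∀ i, V i) (b : V i) : 0 ≤ mi μ Q f i x b := by
  unfold mi ce
  refine div_nonneg (sum_nonneg fun y _ => ?_) (marg_nonneg h Q x)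
  beta_reduce
  by_cases h1 : ∀ i ∈ Q, y i = x i
  · rw [if_pos h1]
    refine mul_nonneg (h.nonneg y) ?_
    split_ifs
    · exact hf y
    · exact le_rfl
  · rw [if_neg h1]

lemma mu_eq_zero (H : Ref w μ) {i : ι} {b : V i} (hb : w i b = 0) {y : ∀ i, V i} (hy : y i = b) :
    μ y = 0 := by
  have h1 := H.ac i b hb
  unfold m1 at h1
  rw [sum_eq_zero_iff_of_nonneg] at h1
  · have := h1 y (mem_univ y)
    rwa [if_pos hy] at this
  · intro z _
    split_ifs
    · exact H.prob.nonneg z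
    · exact le_rfl

lemma mi_eq_zero (H : Ref w μ) (Q : Finset ι) (f : (∀ i, V i) → ℝ) {i : ι} (x : ∀ i, V i)
    {b : V i} (hb : w i b = 0) : mi μ Q f i x b = 0 := by
  unfold mi ce
  rw [sum_eq_zero, zero_div]
  intro y _
  beta_reduce
  by_cases h1 : ∀ i ∈ Q, y i = x i
  · rw [if_pos h1]
    by_cases h2 : y i = b
    · rw [mu_eq_zero H hb h2, zero_mul]
    · rw [if_neg h2, mul_zero]
  · rw [if_neg h1]

lemma Dphi_nonneg (H : Ref w μ) (Q : Finset ι) {f : (∀ i, V i) → ℝ} (hf : ∀ y, 0 ≤ f y) (i : ι)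
    (x : ∀ i, V i) : 0 ≤ ∑ b, w i b * phi (mi μ Q f i x b / w i b) :=
  sum_nonneg fun b _ => mul_nonneg (H.w_nonneg i b)
    (phi_nonneg (div_nonneg (mi_nonneg H.prob Q hf i x b) (H.w_nonneg i b)))

/-- the density of the pins is at most the exponential of their cost -/
lemma gdw_le_cost (H : Ref w μ) {ok : Finset ι → Prop} {lam : ι → ℝ} {cost : Finset ι → ℝ} {δ : ℝ}
    (hδ : 0 < δ) (hE : EIc w μ ok lam cost δ) (hlam0 : ∀ i, 0 ≤ lam i) {Q : Finset ι} (hQ : ok Q)
    {x : ∀ i, V i} (hx : δ ≤ marg μ Q x) : gdw w μ Q x ≤ Real.exp (cost Q) := by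
  have hx0 : 0 < marg μ Q x := lt_of_lt_of_le hδ hx
  have h1 : (1 : ℝ) ≤ 1 / δ := by
    rw [le_div_iff₀ hδ, one_mul]
    exact hx.trans (marg_le_one H.prob Q x)
  have h2 := hE Q hQ x hx (fun _ => 1) (fun _ => zero_le_one) (fun _ => h1) (ce_one hx0)
  have h3 : ce μ Q (fun _ => (1 : ℝ) * Real.log 1) x = 0 := by
    unfold ce
    simp
  rw [h3, zero_add] at h2
  have h4 : 0 ≤ ∑ i ∈ univ \ Q, lam i * ∑ b, w i b * phi (mi μ Q (fun _ => 1) i x b / w i b) :=
    sum_nonneg fun i _ => mul_nonneg (hlam0 i) (Dphi_nonneg H Q (fun _ => zero_le_one) i x)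
  have h5 : 0 < gdw w μ Q x := (gdw_pos_iff H.prob H.w_nonneg H.ac Q x).mpr hx0
  rw [← Real.log_le_iff_le_exp h5]
  linarith

/-- **The Gibbs step.** -/
theorem gibbs (H : Ref w μ) {ok : Finset ι → Prop} {lam : ι → ℝ} {cost : Finset ι → ℝ} {δ : ℝ}
    (hδ : 0 < δ) (hE : EIc w μ ok lam cost δ) (hlam0 : ∀ i, 0 ≤ lam i) {Q : Finset ι} (hQ : ok Q)
    {x : ∀ i, V i} (hx : δ ≤ marg μ Q x) {I : Finset ι} (hI : Disjoint Q I)
    (ψ : ∀ i, V i → ℝ) {l0 : ℝ} (hl0 : 0 < l0) (hlam : ∀ i ∈ I, l0 ≤ lam i)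
    {T : ℝ} (hT : δ * Real.exp T ≤ 1) {τ : ℝ} (hτ0 : 0 ≤ τ)
    (hτ : ∑ i ∈ I, ∑ b, w i b * (Real.exp (ψ i b / l0) - 1) ≤ τ) :
    gR w μ Q (fun y => Real.exp (min (∑ i ∈ I, ψ i (y i)) T)) x ≤ Real.exp (cost Q + l0 * τ) := by
  have hx0 : 0 < marg μ Q x := lt_of_lt_of_le hδ hx
  have hg : 0 < gdw w μ Q x := (gdw_pos_iff H.prob H.w_nonneg H.ac Q x).mpr hx0
  have hgc := gdw_le_cost H hδ hE hlam0 hQ hx
  rw [gR_eq Q _ hx0]
  obtain ⟨Z, hZd⟩ : ∃ Z, Z = ce μ Q (fun y => Real.exp (min (∑ i ∈ I, ψ i (y i)) T)) x := ⟨_, rfl⟩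
  rw [← hZd]
  have hmon : Real.exp (cost Q) ≤ Real.exp (cost Q + l0 * τ) :=
    Real.exp_le_exp.mpr (by nlinarith)
  by_cases hZ : Z ≤ δ * Real.exp T
  · have h1 : Z ≤ 1 := hZ.trans hT
    calc gdw w μ Q x * Z ≤ gdw w μ Q x * 1 := mul_le_mul_of_nonneg_left h1 hg.le
      _ = gdw w μ Q x := mul_one _
      _ ≤ _ := hgc.trans hmon
  · rw [not_le] at hZ
    have hZ0 : 0 < Z := lt_trans (by positivity) hZ
    obtain ⟨f, hfd⟩ : ∃ f : (∀ i, V i) → ℝ,
        f = fun y => Real.exp (min (∑ i ∈ I, ψ i (y i)) T) / Z := ⟨_, rfl⟩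
    have hf0 : ∀ y, 0 ≤ f y := fun y => by rw [hfd]; positivity
    have hf1 : ∀ y, f y ≤ 1 / δ := fun y => by
      rw [hfd]
      beta_reduce
      rw [div_le_div_iff₀ hZ0 hδ, one_mul]
      have h2 : Real.exp (min (∑ i ∈ I, ψ i (y i)) T) ≤ Real.exp T :=
        Real.exp_le_exp.mpr (min_le_right _ _)
      calc Real.exp (min (∑ i ∈ I, ψ i (y i)) T) * δ ≤ Real.exp T * δ :=
            mul_le_mul_of_nonneg_right h2 hδ.le
        _ = δ * Real.exp T := mul_comm _ _
        _ ≤ Z := hZ.le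
    have hfc : ∀ y, f y = Z⁻¹ * Real.exp (min (∑ i ∈ I, ψ i (y i)) T) := fun y => by
      rw [hfd]; beta_reduce; rw [div_eq_inv_mul]
    have hce : ce μ Q f x = 1 := by
      rw [ce_congr Q hfc x, ce_const_mul, ← hZd]
      exact inv_mul_cancel₀ hZ0.ne'
    have h3 := hE Q hQ x hx f hf0 hf1 hce
    -- the entropy of `f`
    have h4 : ce μ Q (fun y => f y * Real.log (f y)) x
        = ce μ Q (fun y => f y * min (∑ i ∈ I, ψ i (y i)) T) x - Real.log Z := by
      have e1 : ∀ y, f y * Real.log (f y)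
          = f y * min (∑ i ∈ I, ψ i (y i)) T + (-Real.log Z) * f y := by
        intro y
        have : Real.log (f y) = min (∑ i ∈ I, ψ i (y i)) T - Real.log Z := by
          rw [hfd]
          beta_reduce
          rw [Real.log_div (Real.exp_pos _).ne' hZ0.ne', Real.log_exp]
        rw [this]; ring
      have e2 : ce μ Q (fun y => f y * Real.log (f y)) x
          = ce μ Q (fun y => f y * min (∑ i ∈ I, ψ i (y i)) T) x
            + ce μ Q (fun y => (-Real.log Z) * f y) x := by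
        rw [ce_congr Q e1 x]
        unfold ce
        rw [← add_div, ← sum_add_distrib]
        congr 1
        refine sum_congr rfl fun y _ => ?_
        split_ifs
        · ring
        · simp
      rw [e2, ce_const_mul, hce]
      ring
    have h5 : ce μ Q (fun y => f y * min (∑ i ∈ I, ψ i (y i)) T) x
        ≤ ∑ i ∈ I, ∑ b, mi μ Q f i x b * ψ i b := by
      calc ce μ Q (fun y => f y * min (∑ i ∈ I, ψ i (y i)) T) x
          ≤ ce μ Q (fun y => ∑ i ∈ I, f y * ψ i (y i)) x := by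
            refine ce_mono H.prob Q (fun y => ?_) x
            rw [← mul_sum]
            exact mul_le_mul_of_nonneg_left (min_le_left _ _) (hf0 y)
        _ = ∑ i ∈ I, ∑ b, mi μ Q f i x b * ψ i b := by
            rw [ce_sum]
            exact sum_congr rfl fun i _ => ce_loc1 Q f i (ψ i) x
    have h6 : ∑ i ∈ I, ∑ b, mi μ Q f i x b * ψ i b
        ≤ l0 * ∑ i ∈ I, ∑ b, w i b * phi (mi μ Q f i x b / w i b) + l0 * τ := by
      have e1 : ∑ i ∈ I, ∑ b, mi μ Q f i x b * ψ i b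
          ≤ ∑ i ∈ I, ∑ b, (l0 * (w i b * phi (mi μ Q f i x b / w i b))
            + l0 * (w i b * (Real.exp (ψ i b / l0) - 1))) := by
        refine sum_le_sum fun i _ => sum_le_sum fun b _ => ?_
        by_cases hw : w i b = 0
        · rw [mi_eq_zero H Q f x hw, hw]; simp
        have hw' : 0 < w i b := lt_of_le_of_ne (H.w_nonneg i b) (Ne.symm hw)
        have hy := young (r := mi μ Q f i x b / w i b)
          (div_nonneg (mi_nonneg H.prob Q hf0 i x b) hw'.le) (ψ i b / l0)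
        have hy2 := mul_le_mul_of_nonneg_left hy (mul_pos hl0 hw').le
        have e2 : l0 * w i b * (mi μ Q f i x b / w i b * (ψ i b / l0)) = mi μ Q f i x b * ψ i b := by
          field_simp
        rw [e2] at hy2
        linarith
      refine e1.trans ?_
      simp only [sum_add_distrib, ← mul_sum]
      have := mul_le_mul_of_nonneg_left hτ hl0.le
      linarith
    have h7 : l0 * ∑ i ∈ I, ∑ b, w i b * phi (mi μ Q f i x b / w i b)
        ≤ ∑ i ∈ univ \ Q, lam i * ∑ b, w i b * phi (mi μ Q f i x b / w i b) := by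
      rw [mul_sum]
      have hIs : I ⊆ univ \ Q := fun i hi =>
        mem_sdiff.mpr ⟨mem_univ i, fun hc => disjoint_left.mp hI hc hi⟩
      calc ∑ i ∈ I, l0 * ∑ b, w i b * phi (mi μ Q f i x b / w i b)
          ≤ ∑ i ∈ I, lam i * ∑ b, w i b * phi (mi μ Q f i x b / w i b) :=
            sum_le_sum fun i hi => mul_le_mul_of_nonneg_right (hlam i hi) (Dphi_nonneg H Q hf0 i x)
        _ ≤ _ := sum_le_sum_of_subset_of_nonneg hIs fun i _ _ =>
            mul_nonneg (hlam0 i) (Dphi_nonneg H Q hf0 i x)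
    have h8 : Real.log (gdw w μ Q x * Z) ≤ cost Q + l0 * τ := by
      rw [Real.log_mul hg.ne' hZ0.ne']
      rw [h4] at h3
      linarith
    exact (Real.log_le_iff_le_exp (mul_pos hg hZ0)).mp h8

end

end Vale.Agent.P042.H104
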