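import Vale.Agent.P042.H104.Light

/-! The injective norm bound for pinned laws, heavy atoms included. -/

namespace Vale.Agent.P042.H104

open Finset Vale.Agent.P042.H779 Vale.Agent.P042.H779.Ab Vale.Agent.P042.H482

set_option linter.unusedSectionVars false

section
variable {ι : Type*} [Fintype ι] [DecidableEq ι] {V : ι → Type*} [∀ i, Fintype (V i)]
  [∀ i, DecidableEq (V i)] {w : ∀ i, V i → ℝ} {μ : (∀ i, V i) → ℝ}

/-- centring -/
noncomputable def cen (w : ∀ i, V i → ℝ) (f : ∀ i, V i → ℂ) : ∀ i, V i → ℂ :=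
  fun i b => f i b - ∑ b', (w i b' : ℂ) * f i b'

lemma gE_add (Q : Finset ι) (f g : (∀ i, V i) → ℂ) (x : ∀ i, V i) :
    gE w μ Q (fun y => f y + g y) x = gE w μ Q f x + gE w μ Q g x := by
  unfold gE
  rw [← add_div, ← sum_add_distrib]
  congr 1
  refine sum_congr rfl fun y _ => ?_
  split_ifs
  · ring
  · simp

lemma gE_const_mul (Q : Finset ι) (c : ℂ) (f : (∀ i, V i) → ℂ) (x : ∀ i, V i) :
    gE w μ Q (fun y => c * f y) x = c * gE w μ Q f x := by
  unfold gE
  rw [mul_div_assoc', mul_sum]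
  congr 1
  refine sum_congr rfl fun y _ => ?_
  split_ifs
  · ring
  · simp

/-- a one-coordinate factor is expanded in pins -/
lemma gE_pin (H : Ref w μ) {Q : Finset ι} {i : ι} (hi : i ∉ Q) (d : V i → ℂ)
    (K : (∀ i, V i) → ℂ) (x : ∀ i, V i) :
    gE w μ Q (fun y => d (y i) * K y) x
      = ∑ b, (w i b : ℂ) * d b * gE w μ (insert i Q) K (Function.update x i b) := by
  have hprod : ∀ b, ∏ j ∈ insert i Q, w j (Function.update x i b j) = w i b * ∏ j ∈ Q, w j (x j) := by
    intro b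
    rw [prod_insert hi, Function.update_self]
    congr 1
    refine prod_congr rfl fun j hj => ?_
    have : j ≠ i := fun h => hi (h ▸ hj)
    rw [Function.update_of_ne this]
  have hiff : ∀ (b : V i) (y : ∀ i, V i), (∀ j ∈ insert i Q, y j = Function.update x i b j)
      ↔ (y i = b ∧ ∀ j ∈ Q, y j = x j) := by
    intro b y
    constructor
    · intro h
      refine ⟨by simpa using h i (mem_insert_self i Q), fun j hj => ?_⟩
      have hji : j ≠ i := fun h => hi (h ▸ hj)
      have := h j (mem_insert_of_mem hj)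
      simpa [hji] using this
    · rintro ⟨h1, h2⟩ j hj
      rcases mem_insert.mp hj with rfl | hj
      · simpa using h1
      · have hji : j ≠ i := fun h => hi (h ▸ hj)
        simpa [hji] using h2 j hj
  have h1 : ∀ b, (w i b : ℂ) * d b * gE w μ (insert i Q) K (Function.update x i b)
      = (∑ y, if (∀ j ∈ Q, y j = x j) then
          (if y i = b then (μ y : ℂ) * (d (y i) * K y) else 0) else 0)
        / ((∏ j ∈ Q, w j (x j) : ℝ) : ℂ) := by
    intro b
    unfold gE
    rw [hprod b]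
    by_cases hb : w i b = 0
    · rw [hb]
      simp only [Complex.ofReal_zero, zero_mul]
      rw [sum_eq_zero, zero_div]
      intro y _
      split_ifs with h1 h2
      · rw [mu_eq_zero H hb h2]; simp
      · rfl
      · rfl
    · have hb' : (w i b : ℂ) ≠ 0 := by exact_mod_cast hb
      have e1 : (∑ y, if (∀ j ∈ insert i Q, y j = Function.update x i b j)
            then (μ y : ℂ) * K y else 0) * d b
          = ∑ y, if (∀ j ∈ Q, y j = x j) then
          (if y i = b then (μ y : ℂ) * (d (y i) * K y) else 0) else 0 := by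
        rw [sum_mul]
        refine sum_congr rfl fun y _ => ?_
        by_cases h2 : ∀ j ∈ Q, y j = x j
        · rw [if_pos h2]
          by_cases h3 : y i = b
          · rw [if_pos h3, if_pos ((hiff b y).mpr ⟨h3, h2⟩), h3]; ring
          · rw [if_neg h3, if_neg (fun hc => h3 ((hiff b y).mp hc).1), zero_mul]
        · rw [if_neg h2, if_neg (fun hc => h2 ((hiff b y).mp hc).2), zero_mul]
      rw [← e1, Complex.ofReal_mul]
      rw [mul_div_assoc', mul_comm ((w i b : ℂ)) ((∏ j ∈ Q, w j (x j) : ℝ) : ℂ)]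
      rw [mul_comm (w i b : ℂ) (d b), mul_assoc, mul_comm (w i b : ℂ), ← mul_assoc,
        mul_div_mul_right _ _ hb', mul_comm (d b)]
  rw [sum_congr rfl fun b _ => h1 b, ← sum_div, sum_comm]
  unfold gE
  congr 1
  refine sum_congr rfl fun y _ => ?_
  by_cases h2 : ∀ j ∈ Q, y j = x j
  · simp only [if_pos h2]
    rw [sum_ite_eq, if_pos (mem_univ _)]
  · simp only [if_neg h2]
    simp

lemma e0_insert {I : Finset ι} {i : ι} (hi : i ∉ I) (n : ℕ) (u : ι → ℂ) :
    e0 (insert i I) (n + 1) u = e0 I (n + 1) u + u i * e0 I n u := by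
  unfold e0
  rw [powersetCard_succ_insert hi, sum_union]
  · congr 1
    rw [sum_image, mul_sum]
    · refine sum_congr rfl fun E hE => ?_
      have : i ∉ E := fun hc => hi ((mem_powersetCard.mp hE).1 hc)
      rw [prod_insert this]
    · intro E hE F hF h
      have h1 : i ∉ E := fun hc => hi ((mem_powersetCard.mp hE).1 hc)
      have h2 : i ∉ F := fun hc => hi ((mem_powersetCard.mp hF).1 hc)
      rw [← erase_insert h1, ← erase_insert h2, h]
  · rw [disjoint_left]
    intro E hE hE'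
    rw [mem_image] at hE'
    obtain ⟨F, _, rfl⟩ := hE'
    exact hi ((mem_powersetCard.mp hE).1 (mem_insert_self i F))

lemma e0_zero (I : Finset ι) (u : ι → ℂ) : e0 I 0 u = 1 := by
  unfold e0
  simp

lemma e0_congr {I : Finset ι} {n : ℕ} {u v : ι → ℂ} (h : ∀ i ∈ I, u i = v i) :
    e0 I n u = e0 I n v := by
  unfold e0
  refine sum_congr rfl fun E hE => prod_congr rfl fun i hi => h i ((mem_powersetCard.mp hE).1 hi)

/-- the light part of a function -/
noncomputable def lt1 {A : Type*} (f : A → ℂ) : A → ℂ := fun b => if ‖f b‖ ≤ 1 then f b else 0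

/-- the heavy part of a function -/
noncomputable def hv1 {A : Type*} (f : A → ℂ) : A → ℂ := fun b => if ‖f b‖ ≤ 1 then 0 else f b

lemma lt1_add_hv1 {A : Type*} (f : A → ℂ) (b : A) : f b = lt1 f b + hv1 f b := by
  unfold lt1 hv1; split_ifs <;> simp

lemma lt1_le {A : Type*} (f : A → ℂ) (b : A) : ‖lt1 f b‖ ≤ 1 := by
  unfold lt1; split_ifs with h
  · exact h
  · simp

lemma lt1_le_self {A : Type*} (f : A → ℂ) (b : A) : ‖lt1 f b‖ ≤ ‖f b‖ := by
  unfold lt1; split_ifs with h
  · exact le_rfl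
  · simp

lemma hv1_le_sq {A : Type*} (f : A → ℂ) (b : A) : ‖hv1 f b‖ ≤ ‖f b‖ ^ 2 := by
  unfold hv1; split_ifs with h
  · simp
  · rw [not_le] at h
    nlinarith

/-- the `L¹` mass of the heavy part -/
noncomputable def eta (w : ∀ i, V i → ℝ) (f : ∀ i, V i → ℂ) (i : ι) : ℝ :=
  ∑ b, w i b * ‖hv1 (f i) b‖

lemma eta_nonneg (H : Ref w μ) (f : ∀ i, V i → ℂ) (i : ι) : 0 ≤ eta w f i :=
  sum_nonneg fun b _ => mul_nonneg (H.w_nonneg i b) (norm_nonneg _)

lemma cen_var {A : Type*} [Fintype A] {v : A → ℝ} (hv1 : ∑ b, v b = 1)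
    (f : A → ℂ) : ∑ b, v b * ‖f b - ∑ b', (v b' : ℂ) * f b'‖ ^ 2 ≤ ∑ b, v b * ‖f b‖ ^ 2 := by
  obtain ⟨m, hm⟩ : ∃ m, m = ∑ b', (v b' : ℂ) * f b' := ⟨_, rfl⟩
  rw [← hm]
  have h1 : ∀ b, v b * ‖f b - m‖ ^ 2
      = v b * ‖f b‖ ^ 2 + v b * ‖m‖ ^ 2 - 2 * (((v b : ℂ) * f b) * (starRingEnd ℂ) m).re := by
    intro b
    rw [Complex.sq_norm, Complex.sq_norm, Complex.sq_norm, Complex.normSq_sub, mul_assoc,
      Complex.re_ofReal_mul]
    ring
  rw [sum_congr rfl fun b _ => h1 b, sum_sub_distrib, sum_add_distrib, ← sum_mul, hv1, ← mul_sum,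
    ← Complex.re_sum, ← sum_mul, ← hm]
  have h2 : (m * (starRingEnd ℂ) m).re = ‖m‖ ^ 2 := by
    rw [Complex.mul_conj, Complex.ofReal_re, Complex.sq_norm]
  rw [h2]
  have := sq_nonneg ‖m‖
  linarith

lemma cen_mean {A : Type*} [Fintype A] {v : A → ℝ} (hv1 : ∑ b, v b = 1)
    (f : A → ℂ) : ∑ b, (v b : ℂ) * (f b - ∑ b', (v b' : ℂ) * f b') = 0 := by
  have : ∑ b, (v b : ℂ) = 1 := by exact_mod_cast hv1
  simp only [mul_sub, sum_sub_distrib, ← sum_mul, this]
  ring

lemma mean_le {A : Type*} [Fintype A] {v : A → ℝ} (hv0 : ∀ b, 0 ≤ v b)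
    (f : A → ℂ) : ‖∑ b, (v b : ℂ) * f b‖ ≤ ∑ b, v b * ‖f b‖ := by
  refine (norm_sum_le _ _).trans (le_of_eq (sum_congr rfl fun b _ => ?_))
  rw [norm_mul, Complex.norm_real, Real.norm_of_nonneg (hv0 b)]

/-- the hypotheses of the injective bound: pins of cost `a + ∑ c i`, at most `d` of them -/
structure Data (w : ∀ i, V i → ℝ) (μ : (∀ i, V i) → ℝ) (lam : ι → ℝ) (a : ℝ) (c : ι → ℝ) (d : ℕ)
    (δ wm : ℝ) : Prop where
  ref : Ref w μ
  δ_pos : 0 < δ
  eic : EIc w μ (fun Q => Q.card ≤ d) lam (fun Q => a + ∑ i ∈ Q, c i) δ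
  lam_nonneg : ∀ i, 0 ≤ lam i
  a_nonneg : 0 ≤ a
  c_nonneg : ∀ i, 0 ≤ c i
  wm_pos : 0 < wm
  wm_le : wm ≤ 1
  atoms : ∀ i b, w i b = 0 ∨ wm ≤ w i b
  small : ((Fintype.card ι + 1 : ℕ) : ℝ) * (2 * Fintype.card ι + 1) ^ d * δ ≤ wm ^ d

variable {lam : ι → ℝ} {a : ℝ} {c : ι → ℝ} {d : ℕ} {δ wm : ℝ}

/-- the size of the bound -/
noncomputable def Bq (a : ℝ) (c : ι → ℝ) (l0 cm : ℝ) (Q : Finset ι) (n : ℕ) : ℝ :=
  2 * (4 * Real.exp cm / l0) ^ n * Real.exp (a + ∑ i ∈ Q, c i + 1)

lemma Bq_nonneg {l0 cm : ℝ} (hl0 : 0 < l0) (Q : Finset ι) (n : ℕ) : 0 ≤ Bq a c l0 cm Q n := by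
  unfold Bq; positivity

/-- the light case -/
lemma light' (D : Data w μ lam a c d δ wm) {l0 cm : ℝ} (hl0 : 0 < l0) (hl1 : l0 ≤ 1)
    (hcm : 0 ≤ cm) {Q I : Finset ι} (hI : Disjoint Q I) {n : ℕ} (hd : Q.card + n ≤ d)
    (hlam : ∀ i ∈ I, l0 ≤ lam i) (x : ∀ i, V i) (f : ∀ i, V i → ℂ)
    (hf1 : ∀ i ∈ I, ∀ b, ‖f i b‖ ≤ 1) (hf2 : ∑ i ∈ I, ∑ b, w i b * ‖f i b‖ ^ 2 ≤ 1) :
    ‖gE w μ Q (es I n (cen w f)) x‖ ≤ Bq a c l0 cm Q n := by
  have hcost : 0 ≤ a + ∑ i ∈ Q, c i := add_nonneg D.a_nonneg (sum_nonneg fun i _ => D.c_nonneg i)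
  have hm1 : ∀ i ∈ I, ‖∑ b', (w i b' : ℂ) * f i b'‖ ≤ 1 := by
    intro i hi
    refine (mean_le (D.ref.w_nonneg i) _).trans ?_
    calc ∑ b, w i b * ‖f i b‖ ≤ ∑ b, w i b * 1 :=
          sum_le_sum fun b _ => mul_le_mul_of_nonneg_left (hf1 i hi b) (D.ref.w_nonneg i b)
      _ = 1 := by rw [← sum_mul, D.ref.w_sum, one_mul]
  have h1 := light D.ref D.δ_pos D.eic D.lam_nonneg (Q := Q) (by show Q.card ≤ d; omega) hcost x hI
    (cen w f) hl0 hl1 hlam
    (by
      intro i hi b
      unfold cen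
      refine (norm_sub_le _ _).trans ?_
      have := hf1 i hi b
      have := hm1 i hi
      linarith)
    (fun i hi => cen_mean (D.ref.w_sum i) (f i))
    (le_trans (sum_le_sum fun i hi => cen_var (D.ref.w_sum i) (f i)) hf2)
    (m := n) D.wm_pos D.wm_le D.atoms
    (by
      have hk : (0 : ℝ) ≤ (Fintype.card ι : ℝ) := Nat.cast_nonneg _
      have h2 : (2 * (Fintype.card ι : ℝ)) ^ n ≤ (2 * Fintype.card ι + 1) ^ d :=
        calc (2 * (Fintype.card ι : ℝ)) ^ n ≤ (2 * Fintype.card ι + 1) ^ n :=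
              pow_le_pow_left₀ (by positivity) (by linarith) n
          _ ≤ _ := pow_le_pow_right₀ (by linarith) (by omega)
      have h3 : wm ^ d ≤ wm ^ Q.card := pow_le_pow_of_le_one D.wm_pos.le D.wm_le (by omega)
      refine le_trans ?_ (D.small.trans h3)
      exact mul_le_mul_of_nonneg_right (mul_le_mul_of_nonneg_left h2 (by positivity)) D.δ_pos.le)
  refine h1.trans ?_
  unfold Bq
  have h4 : 4 / l0 ≤ 4 * Real.exp cm / l0 := by
    refine div_le_div_of_nonneg_right ?_ hl0.le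
    have := Real.one_le_exp hcm
    linarith
  have h5 : (4 / l0) ^ n ≤ (4 * Real.exp cm / l0) ^ n := pow_le_pow_left₀ (by positivity) h4 n
  have := Real.exp_pos (a + ∑ i ∈ Q, c i + 1)
  nlinarith

/-- **heavy atoms are pins.** -/
theorem heavy (D : Data w μ lam a c d δ wm) {l0 cm : ℝ} (hl0 : 0 < l0) (hl1 : l0 ≤ 1)
    (hcm : 0 ≤ cm) (T : Finset ι) : ∀ (Q I : Finset ι) (n : ℕ) (x : ∀ i, V i) (f : ∀ i, V i → ℂ),
    Disjoint Q I → Q.card + n ≤ d → (∀ i ∈ I, l0 ≤ lam i) → (∀ i ∈ I, c i ≤ cm) →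
    (∀ i ∈ I, i ∉ T → ∀ b, ‖f i b‖ ≤ 1) → ∑ i ∈ I, ∑ b, w i b * ‖f i b‖ ^ 2 ≤ 1 →
    ‖gE w μ Q (es I n (cen w f)) x‖ ≤ Bq a c l0 cm Q n * ∏ i ∈ T, (1 + 2 * eta w f i) := by
  induction T using Finset.induction_on with
  | empty =>
    intro Q I n x f hQI hd hlam _ hf1 hf2
    rw [prod_empty, mul_one]
    exact light' D hl0 hl1 hcm hQI hd hlam x f (fun i hi => hf1 i hi (notMem_empty i)) hf2
  | insert i T hiT ih =>
    intro Q I n x f hQI hd hlam hc hf1 hf2
    have hη : ∀ j, 0 ≤ eta w f j := eta_nonneg D.ref f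
    have hP : 0 ≤ ∏ j ∈ T, (1 + 2 * eta w f j) :=
      prod_nonneg fun j _ => by have := hη j; linarith
    have hB : 0 ≤ Bq a c l0 cm Q n := Bq_nonneg hl0 Q n
    rw [prod_insert hiT]
    by_cases hiI : i ∈ I
    swap
    · -- `i` is not used
      have h1 := ih Q I n x f hQI hd hlam hc (fun j hj hjT => hf1 j hj fun hc' => by
        rcases mem_insert.mp hc' with h | h
        · exact hiI (h ▸ hj)
        · exact hjT h) hf2
      refine h1.trans ?_
      have := hη i
      nlinarith [mul_nonneg hB hP]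
    obtain ⟨I', hI'⟩ : ∃ I', I' = I.erase i := ⟨_, rfl⟩
    have hiI' : i ∉ I' := by rw [hI']; exact notMem_erase i I
    have hII : I = insert i I' := by rw [hI', insert_erase hiI]
    have hI'I : I' ⊆ I := by rw [hI']; exact erase_subset i I
    have hiQ : i ∉ Q := fun hc' => disjoint_left.mp hQI hc' hiI
    obtain ⟨f', hf'⟩ : ∃ f' : ∀ i, V i → ℂ, f' = Function.update f i (lt1 (f i)) := ⟨_, rfl⟩
    have hf'i : f' i = lt1 (f i) := by rw [hf', Function.update_self]
    have hf'j : ∀ j, j ≠ i → f' j = f j := fun j hj => by rw [hf', Function.update_of_ne hj]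
    -- the modified function
    have hle : ∀ j b, ‖f' j b‖ ≤ ‖f j b‖ := by
      intro j b
      by_cases h : j = i
      · subst h; rw [hf'i]; exact lt1_le_self _ _
      · rw [hf'j j h]
    have h1 := ih Q I n x f' hQI hd hlam hc
      (by
        intro j hj hjT b
        by_cases h : j = i
        · subst h; rw [hf'i]; exact lt1_le _ _
        · rw [hf'j j h]
          exact hf1 j hj (fun hc' => by
            rcases mem_insert.mp hc' with h' | h'
            · exact h h'
            · exact hjT h') b)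
      (le_trans (sum_le_sum fun j _ => sum_le_sum fun b _ => mul_le_mul_of_nonneg_left
        (pow_le_pow_left₀ (norm_nonneg _) (hle j b) 2) (D.ref.w_nonneg j b)) hf2)
    have hηf : ∏ j ∈ T, (1 + 2 * eta w f' j) = ∏ j ∈ T, (1 + 2 * eta w f j) := by
      refine prod_congr rfl fun j hj => ?_
      have hji : j ≠ i := fun h => hiT (h ▸ hj)
      unfold eta
      rw [hf'j j hji]
    rw [hηf] at h1
    cases n with
    | zero =>
      have e1 : ∀ (g : ∀ i, V i → ℂ), gE w μ Q (es I 0 (cen w g)) x = gE w μ Q (fun _ => 1) x := by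
        intro g
        congr 1
        funext y
        exact e0_zero _ _
      rw [e1 f']at h1
      rw [e1 f]
      refine h1.trans ?_
      have := hη i
      nlinarith [mul_nonneg hB hP]
    | succ n =>
      -- the decomposition
      obtain ⟨mh, hmh⟩ : ∃ mh, mh = ∑ b, (w i b : ℂ) * hv1 (f i) b := ⟨_, rfl⟩
      have hcen : ∀ b, cen w f i b = cen w f' i b + (hv1 (f i) b - mh) := by
        intro b
        unfold cen
        rw [hf'i]
        have e1 : ∑ b', (w i b' : ℂ) * f i b' = ∑ b', (w i b' : ℂ) * lt1 (f i) b' + mh := by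
          rw [hmh, ← sum_add_distrib]
          refine sum_congr rfl fun b' _ => ?_
          rw [← mul_add, ← lt1_add_hv1]
        rw [e1, lt1_add_hv1 (f i) b]
        unfold lt1 hv1
        split_ifs <;> simp <;> ring
      have hcenj : ∀ j, j ≠ i → cen w f j = cen w f' j := by
        intro j hj
        unfold cen
        rw [hf'j j hj]
      have hcI' : ∀ y : ∀ i, V i, ∀ m, es I' m (cen w f') y = es I' m (cen w f) y := by
        intro y m
        unfold es
        refine e0_congr fun j hj => ?_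
        have : j ≠ i := fun h => hiI' (h ▸ hj)
        rw [hcenj j this]
      have key : ∀ y, es I (n + 1) (cen w f) y
          = es I (n + 1) (cen w f') y + (hv1 (f i) (y i) * es I' n (cen w f) y
            + (-mh) * es I' n (cen w f) y) := by
        intro y
        have e1 : es I (n + 1) (cen w f) y
            = es I' (n + 1) (cen w f) y + cen w f i (y i) * es I' n (cen w f) y := by
          unfold es
          rw [hII, e0_insert hiI']
        have e2 : es I (n + 1) (cen w f') y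
            = es I' (n + 1) (cen w f') y + cen w f' i (y i) * es I' n (cen w f') y := by
          unfold es
          rw [hII, e0_insert hiI']
        rw [e1, e2, hcI' y, hcI' y, hcen]
        ring
      have key2 : gE w μ Q (es I (n + 1) (cen w f)) x
          = gE w μ Q (es I (n + 1) (cen w f')) x
            + ((∑ b, (w i b : ℂ) * hv1 (f i) b
              * gE w μ (insert i Q) (es I' n (cen w f)) (Function.update x i b))
            + (-mh) * gE w μ Q (es I' n (cen w f)) x) := by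
        rw [← gE_pin D.ref hiQ, ← gE_const_mul, ← gE_add, ← gE_add]
        congr 1
        funext y
        exact key y
      -- the two pinned terms
      have hQi : Disjoint (insert i Q) I' := by
        rw [disjoint_insert_left]
        exact ⟨hiI', disjoint_of_subset_right hI'I hQI⟩
      have hcardi : (insert i Q).card = Q.card + 1 := card_insert_of_notMem hiQ
      have hf1' : ∀ j ∈ I', j ∉ T → ∀ b, ‖f j b‖ ≤ 1 := by
        intro j hj hjT
        refine hf1 j (hI'I hj) fun hc' => ?_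
        rcases mem_insert.mp hc' with h' | h'
        · exact hiI' (h' ▸ hj)
        · exact hjT h'
      have hf2' : ∑ j ∈ I', ∑ b, w j b * ‖f j b‖ ^ 2 ≤ 1 :=
        le_trans (sum_le_sum_of_subset_of_nonneg hI'I fun j _ _ => sum_nonneg fun b _ =>
          mul_nonneg (D.ref.w_nonneg j b) (by positivity)) hf2
      have h2 : ∀ b, ‖gE w μ (insert i Q) (es I' n (cen w f)) (Function.update x i b)‖
          ≤ Bq a c l0 cm Q (n + 1) * ∏ j ∈ T, (1 + 2 * eta w f j) := by
        intro b
        refine (ih (insert i Q) I' n (Function.update x i b) f hQi (by omega)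
          (fun j hj => hlam j (hI'I hj)) (fun j hj => hc j (hI'I hj)) hf1' hf2').trans ?_
        refine mul_le_mul_of_nonneg_right ?_ hP
        unfold Bq
        rw [sum_insert hiQ]
        have e1 : Real.exp (a + (c i + ∑ j ∈ Q, c j) + 1)
            = Real.exp (c i) * Real.exp (a + ∑ j ∈ Q, c j + 1) := by
          rw [← Real.exp_add]; congr 1; ring
        have e2 : Real.exp (c i) ≤ 4 * Real.exp cm / l0 := by
          rw [le_div_iff₀ hl0]
          have h3 : Real.exp (c i) ≤ Real.exp cm := Real.exp_le_exp.mpr (hc i hiI)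
          have h4 := Real.exp_pos (c i)
          have h5 := Real.exp_pos cm
          nlinarith
        rw [e1, pow_succ]
        have h6 : 0 ≤ (4 * Real.exp cm / l0) ^ n := by positivity
        have h7 := Real.exp_pos (a + ∑ j ∈ Q, c j + 1)
        calc 2 * (4 * Real.exp cm / l0) ^ n * (Real.exp (c i) * Real.exp (a + ∑ j ∈ Q, c j + 1))
            = (2 * (4 * Real.exp cm / l0) ^ n * Real.exp (a + ∑ j ∈ Q, c j + 1))
              * Real.exp (c i) := by ring
          _ ≤ (2 * (4 * Real.exp cm / l0) ^ n * Real.exp (a + ∑ j ∈ Q, c j + 1))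
              * (4 * Real.exp cm / l0) := mul_le_mul_of_nonneg_left e2 (by positivity)
          _ = _ := by ring
      have h3 : ‖gE w μ Q (es I' n (cen w f)) x‖
          ≤ Bq a c l0 cm Q (n + 1) * ∏ j ∈ T, (1 + 2 * eta w f j) := by
        refine (ih Q I' n x f (disjoint_of_subset_right hI'I hQI) (by omega)
          (fun j hj => hlam j (hI'I hj)) (fun j hj => hc j (hI'I hj)) hf1' hf2').trans ?_
        refine mul_le_mul_of_nonneg_right ?_ hP
        unfold Bq
        have e2 : 1 ≤ 4 * Real.exp cm / l0 := by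
          rw [le_div_iff₀ hl0]
          have h5 := Real.one_le_exp hcm
          linarith
        rw [pow_succ]
        have h6 : 0 ≤ (4 * Real.exp cm / l0) ^ n := by positivity
        have h7 := Real.exp_pos (a + ∑ j ∈ Q, c j + 1)
        calc 2 * (4 * Real.exp cm / l0) ^ n * Real.exp (a + ∑ j ∈ Q, c j + 1)
            = (2 * (4 * Real.exp cm / l0) ^ n * Real.exp (a + ∑ j ∈ Q, c j + 1)) * 1 := by ring
          _ ≤ (2 * (4 * Real.exp cm / l0) ^ n * Real.exp (a + ∑ j ∈ Q, c j + 1))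
              * (4 * Real.exp cm / l0) := mul_le_mul_of_nonneg_left e2 (by positivity)
          _ = _ := by ring
      obtain ⟨BB, hBB⟩ : ∃ BB, BB = Bq a c l0 cm Q (n + 1) * ∏ j ∈ T, (1 + 2 * eta w f j) := ⟨_, rfl⟩
      rw [← hBB] at h1 h2 h3
      have hBB0 : 0 ≤ BB := by rw [hBB]; exact mul_nonneg hB hP
      have h4 : ‖∑ b, (w i b : ℂ) * hv1 (f i) b
              * gE w μ (insert i Q) (es I' n (cen w f)) (Function.update x i b)‖
          ≤ eta w f i * BB := by
        refine (norm_sum_le _ _).trans ?_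
        unfold eta
        rw [sum_mul]
        refine sum_le_sum fun b _ => ?_
        rw [norm_mul, norm_mul, Complex.norm_real, Real.norm_of_nonneg (D.ref.w_nonneg i b)]
        exact mul_le_mul_of_nonneg_left (h2 b)
          (mul_nonneg (D.ref.w_nonneg i b) (norm_nonneg _))
      have h5 : ‖(-mh) * gE w μ Q (es I' n (cen w f)) x‖ ≤ eta w f i * BB := by
        rw [norm_mul, norm_neg]
        have : ‖mh‖ ≤ eta w f i := by
          rw [hmh]; exact mean_le (D.ref.w_nonneg i) _
        exact mul_le_mul this h3 (norm_nonneg _) (hη i)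
      rw [key2]
      refine (norm_add_le _ _).trans ?_
      have h6 := norm_add_le (∑ b, (w i b : ℂ) * hv1 (f i) b
              * gE w μ (insert i Q) (es I' n (cen w f)) (Function.update x i b))
              ((-mh) * gE w μ Q (es I' n (cen w f)) x)
      have h7 : Bq a c l0 cm Q (n + 1) * ((1 + 2 * eta w f i) * ∏ j ∈ T, (1 + 2 * eta w f j))
          = BB + eta w f i * BB + eta w f i * BB := by rw [hBB]; ring
      rw [h7]
      linarith

/-- **Injective norm bound for pinned laws.** -/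
theorem inj_law (D : Data w μ lam a c d δ wm) {l0 cm : ℝ} (hl0 : 0 < l0) (hl1 : l0 ≤ 1)
    (hcm : 0 ≤ cm) {Q I : Finset ι} (hQI : Disjoint Q I) {n : ℕ} (hd : Q.card + n ≤ d)
    (hlam : ∀ i ∈ I, l0 ≤ lam i) (hc : ∀ i ∈ I, c i ≤ cm) (x : ∀ i, V i) (f : ∀ i, V i → ℂ)
    (hf2 : ∑ i ∈ I, ∑ b, w i b * ‖f i b‖ ^ 2 ≤ 1) :
    ‖gE w μ Q (es I n (cen w f)) x‖
      ≤ 2 * (4 * Real.exp cm / l0) ^ n * Real.exp (a + ∑ i ∈ Q, c i + 3) := by
  refine (heavy D hl0 hl1 hcm I Q I n x f hQI hd hlam hc (fun i hi hc' => absurd hi hc') hf2).trans ?_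
  have h1 : ∏ i ∈ I, (1 + 2 * eta w f i) ≤ Real.exp 2 := by
    calc ∏ i ∈ I, (1 + 2 * eta w f i) ≤ ∏ i ∈ I, Real.exp (2 * eta w f i) :=
          prod_le_prod (fun i _ => by have := eta_nonneg D.ref f i; linarith) fun i _ => by
            have := Real.add_one_le_exp (2 * eta w f i)
            linarith
      _ = Real.exp (2 * ∑ i ∈ I, eta w f i) := by rw [← Real.exp_sum, mul_sum]
      _ ≤ Real.exp 2 := by
          refine Real.exp_le_exp.mpr ?_
          have : ∑ i ∈ I, eta w f i ≤ 1 := by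
            refine le_trans (sum_le_sum fun i _ => ?_) hf2
            unfold eta
            exact sum_le_sum fun b _ => mul_le_mul_of_nonneg_left (hv1_le_sq (f i) b)
              (D.ref.w_nonneg i b)
          linarith
  have hB : 0 ≤ Bq a c l0 cm Q n := Bq_nonneg hl0 Q n
  refine (mul_le_mul_of_nonneg_left h1 hB).trans (le_of_eq ?_)
  unfold Bq
  rw [mul_assoc, ← Real.exp_add]
  congr 2
  ring

end

end Vale.Agent.P042.H104
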