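import Vale.Agent.P042.H104.Tens

/-! `inj` in the form consumed by the law-level Theorem H: the pinned measure restricted to a set
of free sites. -/

namespace Vale.Agent.P042.H104

open Finset Vale.Agent.P042.H779 Vale.Agent.P042.H779.Ab Vale.Agent.P042.H482 Vale.Agent.P042.H685

set_option linter.unusedSectionVars false

section
variable {ι : Type*} [Fintype ι] [DecidableEq ι] {V : ι → Type*} [∀ i, Fintype (V i)]
  [∀ i, DecidableEq (V i)] {w : ∀ i, V i → ℝ} {μ : (∀ i, V i) → ℝ}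
variable {lam : ι → ℝ} {a : ℝ} {c : ι → ℝ} {d : ℕ} {δ wm : ℝ}

/-- **(INJ), the form of Theorem H**: `A` pinned sites (values `u₀`), `VV` free sites, `S` frozen
legs (values `u`), `n` free legs. -/
theorem inj_main (D : Data w μ lam a c d δ wm) {l0 cm : ℝ} (hl0 : 0 < l0) (hl1 : l0 ≤ 1)
    (hcm : 0 ≤ cm) {A VV : Finset ι} (hlam : ∀ i ∈ VV, l0 ≤ lam i) (hc : ∀ i ∈ VV, c i ≤ cm)
    (u₀ : ∀ i, V i) (S : Finset ι) (u : ∀ i, V i) (n : ℕ) (hd : A.card + S.card + n ≤ d)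
    (f : ∀ i, V i → ℂ) (hf2 : ∑ i, ∑ b, w i b * ‖f i b‖ ^ 2 ≤ 1) :
    ‖∑ E ∈ powersetCard n (univ \ S), ∑ x, (pw w x : ℂ) *
      (hh (gr (gp (gdw w μ) A u₀) VV) (S ∪ E) (ov S u x) : ℂ) * ∏ i ∈ E, f i (x i)‖
      ≤ 2 * Real.exp (a + ∑ i ∈ A, c i + 3) * (4 * Real.exp cm / l0) ^ (S.card + n) := by
  classical
  have hR : 1 ≤ 4 * Real.exp cm / l0 := by
    rw [le_div_iff₀ hl0]
    have := Real.one_le_exp hcm
    linarith
  have hRHS : 0 ≤ 2 * Real.exp (a + ∑ i ∈ A, c i + 3) * (4 * Real.exp cm / l0) ^ (S.card + n) := by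
    positivity
  by_cases hSV : S ⊆ VV
  swap
  · -- some frozen leg is outside the free sites
    have h0 : ∑ E ∈ powersetCard n (univ \ S), ∑ x, (pw w x : ℂ) *
        (hh (gr (gp (gdw w μ) A u₀) VV) (S ∪ E) (ov S u x) : ℂ) * ∏ i ∈ E, f i (x i) = 0 := by
      refine sum_eq_zero fun E _ => sum_eq_zero fun x _ => ?_
      rw [hh_gr, if_neg (fun hc' => hSV (subset_union_left.trans hc'))]
      simp
    rw [h0, norm_zero]
    exact hRHS
  by_cases hAS : Disjoint A S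
  swap
  · have h0 : ∑ E ∈ powersetCard n (univ \ S), ∑ x, (pw w x : ℂ) *
        (hh (gr (gp (gdw w μ) A u₀) VV) (S ∪ E) (ov S u x) : ℂ) * ∏ i ∈ E, f i (x i) = 0 := by
      refine sum_eq_zero fun E _ => sum_eq_zero fun x _ => ?_
      rw [hh_gr]
      have : ¬ Disjoint A (S ∪ E) := fun hc' =>
        hAS (disjoint_of_subset_right subset_union_left hc')
      rw [hh_gp_eq_zero _ A u₀ this]
      split_ifs <;> simp
    rw [h0, norm_zero]
    exact hRHS
  obtain ⟨f', hf'⟩ : ∃ f' : ∀ i, V i → ℂ, f' = fun i => if i ∈ VV then f i else 0 := ⟨_, rfl⟩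
  have hf'V : ∀ i, f' i ≠ 0 → i ∈ VV := by
    intro i hi
    by_contra hne
    exact hi (by rw [hf']; simp [hne])
  have hf2' : ∑ i, ∑ b, w i b * ‖f' i b‖ ^ 2 ≤ 1 := by
    refine le_trans (sum_le_sum fun i _ => sum_le_sum fun b _ =>
      mul_le_mul_of_nonneg_left ?_ (D.ref.w_nonneg i b)) hf2
    rw [hf']
    beta_reduce
    by_cases hi : i ∈ VV
    · rw [if_pos hi]
    · rw [if_neg hi]
      exact pow_le_pow_left₀ (norm_nonneg _) (by simp) 2
  have h1 : ∑ E ∈ powersetCard n (univ \ S), ∑ x, (pw w x : ℂ) *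
      (hh (gr (gp (gdw w μ) A u₀) VV) (S ∪ E) (ov S u x) : ℂ) * ∏ i ∈ E, f i (x i)
      = ∑ E ∈ powersetCard n (univ \ (A ∪ S)), ∑ x, (pw w x : ℂ) *
      ((hh (gp (gdw w μ) A u₀) (S ∪ E) (ov S u x) : ℂ) * ∏ i ∈ E, f' i (x i)) := by
    have hsub : powersetCard n (univ \ (A ∪ S)) ⊆ powersetCard n (univ \ S) :=
      powersetCard_mono (sdiff_subset_sdiff (subset_refl _) subset_union_right)
    symm
    rw [← sum_subset hsub]
    · refine sum_congr rfl fun E hE => sum_congr rfl fun x _ => ?_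
      rw [mem_powersetCard] at hE
      rw [hh_gr]
      by_cases hEV : E ⊆ VV
      · rw [if_pos (union_subset hSV hEV), mul_assoc]
        congr 2
        refine prod_congr rfl fun i hi => ?_
        rw [hf']
        beta_reduce
        rw [if_pos (hEV hi)]
      · rw [if_neg (fun hc' => hEV (subset_union_right.trans hc'))]
        obtain ⟨i, hiE, hiV⟩ := not_subset.mp hEV
        have : ∏ i ∈ E, f' i (x i) = 0 := by
          refine prod_eq_zero hiE ?_
          rw [hf']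
          beta_reduce
          rw [if_neg hiV]
          rfl
        rw [this]
        simp
    · intro E hE hE'
      refine sum_eq_zero fun x _ => ?_
      rw [mem_powersetCard] at hE
      have hAE : ¬ Disjoint A (S ∪ E) := by
        intro hc'
        refine hE' (mem_powersetCard.mpr ⟨fun i hi => ?_, hE.2⟩)
        refine mem_sdiff.mpr ⟨mem_univ i, fun hc2 => ?_⟩
        rcases mem_union.mp hc2 with h | h
        · exact disjoint_left.mp hc' h (mem_union_right _ hi)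
        · exact (mem_sdiff.mp (hE.1 hi)).2 h
      rw [hh_gr, hh_gp_eq_zero _ A u₀ hAE]
      split_ifs <;> simp
  rw [h1]
  refine (inj D hl0 hl1 hcm hd f' (fun i hi => hlam i (hf'V i hi)) (fun i hi => hc i (hf'V i hi))
    hf2' u₀ u).trans ?_
  have h2 : ∑ i ∈ A ∪ S, c i = ∑ i ∈ A, c i + ∑ i ∈ S, c i := sum_union hAS
  have h3 : ∑ i ∈ S, c i ≤ S.card * cm := by
    rw [← nsmul_eq_mul, ← sum_const]
    exact sum_le_sum fun i hi => hc i (hSV hi)
  have h4 : (2 : ℝ) ^ S.card * Real.exp (∑ i ∈ S, c i) ≤ (4 * Real.exp cm / l0) ^ S.card := by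
    calc (2 : ℝ) ^ S.card * Real.exp (∑ i ∈ S, c i)
        ≤ 2 ^ S.card * Real.exp (S.card * cm) :=
          mul_le_mul_of_nonneg_left (Real.exp_le_exp.mpr h3) (by positivity)
      _ = (2 * Real.exp cm) ^ S.card := by rw [mul_pow, ← Real.exp_nat_mul]
      _ ≤ (4 * Real.exp cm / l0) ^ S.card := by
          refine pow_le_pow_left₀ (by positivity) ?_ _
          rw [le_div_iff₀ hl0]
          have := Real.exp_pos cm
          nlinarith
  rw [h2]
  have e1 : a + (∑ i ∈ A, c i + ∑ i ∈ S, c i) + 3 = (a + ∑ i ∈ A, c i + 3) + ∑ i ∈ S, c i := by ring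
  rw [e1, Real.exp_add, pow_add]
  calc (2 : ℝ) ^ S.card * (2 * (4 * Real.exp cm / l0) ^ n *
        (Real.exp (a + ∑ i ∈ A, c i + 3) * Real.exp (∑ i ∈ S, c i)))
      = (2 * (4 * Real.exp cm / l0) ^ n * Real.exp (a + ∑ i ∈ A, c i + 3)) *
        ((2 : ℝ) ^ S.card * Real.exp (∑ i ∈ S, c i)) := by ring
    _ ≤ (2 * (4 * Real.exp cm / l0) ^ n * Real.exp (a + ∑ i ∈ A, c i + 3)) *
        (4 * Real.exp cm / l0) ^ S.card := mul_le_mul_of_nonneg_left h4 (by positivity)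
    _ = _ := by ring

/-- **(INJ), the form of 121's Main**: `I` the free sites, sum over the legs inside `I \ S`. -/
theorem inj_I (D : Data w μ lam a c d δ wm) {l0 cm : ℝ} (hl0 : 0 < l0) (hl1 : l0 ≤ 1)
    (hcm : 0 ≤ cm) {A I : Finset ι} (hlam : ∀ i ∈ I, l0 ≤ lam i) (hc : ∀ i ∈ I, c i ≤ cm)
    (u₀ : ∀ i, V i) {S : Finset ι} (hSI : S ⊆ I) (u : ∀ i, V i) (n : ℕ)
    (hd : A.card + S.card + n ≤ d)
    (f : ∀ i, V i → ℂ) (hf2 : ∑ i, ∑ b, w i b * ‖f i b‖ ^ 2 ≤ 1) :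
    ‖∑ E ∈ powersetCard n (I \ S), ∑ x, (pw w x : ℂ) *
      ((hh (gp (gdw w μ) A u₀) (S ∪ E) (ov S u x) : ℂ) * ∏ i ∈ E, f i (x i))‖
      ≤ 2 * Real.exp (a + ∑ i ∈ A, c i + 3) * (4 * Real.exp cm / l0) ^ (S.card + n) := by
  have h := inj_main D hl0 hl1 hcm hlam hc u₀ S u n hd f hf2
  have hsub : powersetCard n (I \ S) ⊆ powersetCard n (univ \ S) :=
    powersetCard_mono (sdiff_subset_sdiff (subset_univ _) (subset_refl _))
  have h1 : ∑ E ∈ powersetCard n (univ \ S), ∑ x, (pw w x : ℂ) *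
      (hh (gr (gp (gdw w μ) A u₀) I) (S ∪ E) (ov S u x) : ℂ) * ∏ i ∈ E, f i (x i)
      = ∑ E ∈ powersetCard n (I \ S), ∑ x, (pw w x : ℂ) *
      ((hh (gp (gdw w μ) A u₀) (S ∪ E) (ov S u x) : ℂ) * ∏ i ∈ E, f i (x i)) := by
    symm
    rw [← sum_subset hsub]
    · refine sum_congr rfl fun E hE => sum_congr rfl fun x _ => ?_
      rw [mem_powersetCard] at hE
      have hEI : E ⊆ I := hE.1.trans sdiff_subset
      rw [hh_gr, if_pos (union_subset hSI hEI), mul_assoc]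
    · intro E hE hE'
      refine sum_eq_zero fun x _ => ?_
      rw [mem_powersetCard] at hE
      have hEI : ¬ S ∪ E ⊆ I := by
        intro hc'
        refine hE' (mem_powersetCard.mpr ⟨fun i hi => ?_, hE.2⟩)
        exact mem_sdiff.mpr ⟨hc' (mem_union_right _ hi), (mem_sdiff.mp (hE.1 hi)).2⟩
      rw [hh_gr, if_neg hEI]
      simp
  rw [h1] at h
  exact h

end

end Vale.Agent.P042.H104
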