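import Vale.Agent.P042.H104.Gibbs
import Vale.Agent.P042.H104.Es

/-! The light part of the injective norm bound. -/

namespace Vale.Agent.P042.H104

open Finset Vale.Agent.P042.H779 Vale.Agent.P042.H779.Ab Vale.Agent.P042.H482

set_option linter.unusedSectionVars false

section
variable {ι : Type*} [Fintype ι] [DecidableEq ι] {V : ι → Type*} [∀ i, Fintype (V i)]
  [∀ i, DecidableEq (V i)] {w : ∀ i, V i → ℝ} {μ : (∀ i, V i) → ℝ}

/-- complex restricted expectation relative to the weights, `g_Q(x) E_{μ^x_Q} f` -/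
noncomputable def gE (w : ∀ i, V i → ℝ) (μ : (∀ i, V i) → ℝ) (Q : Finset ι)
    (f : (∀ i, V i) → ℂ) (x : ∀ i, V i) : ℂ :=
  (∑ y, if (∀ i ∈ Q, y i = x i) then (μ y : ℂ) * f y else 0) / ((∏ i ∈ Q, w i (x i) : ℝ) : ℂ)

lemma norm_gE_le (H : Ref w μ) (Q : Finset ι) (f : (∀ i, V i) → ℂ) (x : ∀ i, V i) :
    ‖gE w μ Q f x‖ ≤ gR w μ Q (fun y => ‖f y‖) x := by
  unfold gE gR
  rw [norm_div, Complex.norm_real, Real.norm_of_nonneg (prod_nonneg fun i _ => H.w_nonneg i _)]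
  refine div_le_div_of_nonneg_right ((norm_sum_le _ _).trans (sum_le_sum fun y _ => ?_))
    (prod_nonneg fun i _ => H.w_nonneg i _)
  split_ifs
  · rw [norm_mul, Complex.norm_real, Real.norm_of_nonneg (H.prob.nonneg y)]
  · simp

/-- elementary symmetric statistic -/
noncomputable def es (I : Finset ι) (m : ℕ) (z : ∀ i, V i → ℂ) (y : ∀ i, V i) : ℂ :=
  e0 I m (fun i => z i (y i))

lemma gR_const (Q : Finset ι) (c : ℝ) (x : ∀ i, V i) :
    gR w μ Q (fun _ => c) x = marg μ Q x * c / ∏ i ∈ Q, w i (x i) := by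
  unfold gR marg
  rw [sum_mul]
  congr 1
  refine sum_congr rfl fun y _ => ?_
  split_ifs <;> simp

/-- one-coordinate exponential moment -/
lemma tau_site {A : Type*} [Fintype A] {v : A → ℝ} (hv : ∀ b, 0 ≤ v b) {z : A → ℂ}
    (hz2 : ∀ b, ‖z b‖ ≤ 2) (hz0 : ∑ b, (v b : ℂ) * z b = 0) {l0 : ℝ} (hl0 : 0 < l0) (hl1 : l0 ≤ 1)
    {ω : ℂ} (hω : ‖ω‖ = 1) :
    ∑ b, v b * (Real.exp ((((l0 / 4 : ℝ) * ω * z b).re + (l0 / 4) ^ 2 * ‖z b‖ ^ 2 / 2) / l0) - 1)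
      ≤ ∑ b, v b * ‖z b‖ ^ 2 := by
  have h1 : ∀ b, v b * (Real.exp ((((l0 / 4 : ℝ) * ω * z b).re
      + (l0 / 4) ^ 2 * ‖z b‖ ^ 2 / 2) / l0) - 1)
      ≤ 1 / 4 * (ω * ((v b : ℂ) * z b)).re + v b * ‖z b‖ ^ 2 := by
    intro b
    have hre : ((((l0 / 4 : ℝ) : ℂ) * ω * z b)).re = l0 / 4 * (ω * z b).re := by
      rw [mul_assoc, Complex.re_ofReal_mul]
    have hre2 : (ω * ((v b : ℂ) * z b)).re = v b * (ω * z b).re := by
      rw [← Complex.re_ofReal_mul]; congr 1; ring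
    obtain ⟨t, ht⟩ : ∃ t, t = ((((l0 / 4 : ℝ) * ω * z b)).re
      + (l0 / 4) ^ 2 * ‖z b‖ ^ 2 / 2) / l0 := ⟨_, rfl⟩
    have ht2 : t = (ω * z b).re / 4 + l0 * ‖z b‖ ^ 2 / 32 := by
      rw [ht, hre]; field_simp; ring
    have hzn := norm_nonneg (z b)
    have hz := hz2 b
    have habs : |(ω * z b).re| ≤ ‖z b‖ := by
      refine (Complex.abs_re_le_norm _).trans ?_
      rw [norm_mul, hω, one_mul]
    have hsq : ‖z b‖ ^ 2 ≤ 2 * ‖z b‖ := by nlinarith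
    have hl : l0 * ‖z b‖ ^ 2 ≤ ‖z b‖ ^ 2 := by nlinarith [sq_nonneg ‖z b‖]
    have hl' : 0 ≤ l0 * ‖z b‖ ^ 2 := by positivity
    have h2 : |t| ≤ 5 / 16 * ‖z b‖ := by
      rw [ht2]
      rw [abs_le] at habs ⊢
      constructor <;> linarith [habs.1, habs.2]
    have h3 : |t| ≤ 1 := by linarith
    have h4 := Real.abs_exp_sub_one_sub_id_le h3
    have h5 : t ^ 2 ≤ 25 / 256 * ‖z b‖ ^ 2 := by
      have := abs_nonneg t
      rw [← sq_abs]
      nlinarith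
    have h6 : Real.exp t - 1 ≤ (ω * z b).re / 4 + ‖z b‖ ^ 2 := by
      have := (abs_le.mp h4).2
      have h7 := sq_nonneg ‖z b‖
      linarith
    rw [← ht, hre2]
    have := mul_le_mul_of_nonneg_left h6 (hv b)
    linarith
  refine (sum_le_sum fun b _ => h1 b).trans (le_of_eq ?_)
  rw [sum_add_distrib, ← mul_sum, ← Complex.re_sum, ← mul_sum, hz0]
  simp

theorem light (H : Ref w μ) {ok : Finset ι → Prop} {lam : ι → ℝ} {cost : Finset ι → ℝ} {δ : ℝ}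
    (hδ : 0 < δ) (hE : EIc w μ ok lam cost δ) (hlam0 : ∀ i, 0 ≤ lam i) {Q : Finset ι} (hQ : ok Q)
    (hcost : 0 ≤ cost Q) (x : ∀ i, V i) {I : Finset ι} (hI : Disjoint Q I) (z : ∀ i, V i → ℂ)
    {l0 : ℝ} (hl0 : 0 < l0) (hl1 : l0 ≤ 1) (hlam : ∀ i ∈ I, l0 ≤ lam i)
    (hz2 : ∀ i ∈ I, ∀ b, ‖z i b‖ ≤ 2) (hz0 : ∀ i ∈ I, ∑ b, (w i b : ℂ) * z i b = 0)
    (hzs : ∑ i ∈ I, ∑ b, w i b * ‖z i b‖ ^ 2 ≤ 1) {m : ℕ} {wm : ℝ} (hwm0 : 0 < wm) (hwm1 : wm ≤ 1)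
    (hwm : ∀ i b, w i b = 0 ∨ wm ≤ w i b)
    (hsmall : ((Fintype.card ι + 1 : ℕ) : ℝ) * (2 * Fintype.card ι) ^ m * δ ≤ wm ^ Q.card) :
    ‖gE w μ Q (es I m z) x‖ ≤ 2 * (4 / l0) ^ m * Real.exp (cost Q + 1) := by
  have hb : ∀ y : ∀ i, V i, ∀ i ∈ I, ‖z i (y i)‖ ≤ 2 := fun y i hi => hz2 i hi _
  have hcI : (I.card : ℝ) ≤ Fintype.card ι := by
    exact_mod_cast card_le_univ I
  have hk1 : (1 : ℝ) ≤ ((Fintype.card ι + 1 : ℕ) : ℝ) := by
    push_cast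
    have : (0 : ℝ) ≤ Fintype.card ι := Nat.cast_nonneg _
    linarith
  have hpow : (0 : ℝ) ≤ (2 * (Fintype.card ι : ℝ)) ^ m := by positivity
  have hpI : ((I.card : ℝ) * 2) ^ m ≤ (2 * (Fintype.card ι : ℝ)) ^ m := by
    refine pow_le_pow_left₀ (by positivity) ?_ m
    linarith
  have hRHS : 1 ≤ 2 * (4 / l0) ^ m * Real.exp (cost Q + 1) := by
    have h1 : 1 ≤ (4 / l0) ^ m := one_le_pow₀ (by rw [le_div_iff₀ hl0]; linarith)
    have h2 : 1 ≤ Real.exp (cost Q + 1) := Real.one_le_exp (by linarith)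
    nlinarith
  rcases lt_or_ge (marg μ Q x) δ with hx | hx
  · -- negligible pins
    by_cases hW : ∏ i ∈ Q, w i (x i) = 0
    · have : gE w μ Q (es I m z) x = 0 := by unfold gE; rw [hW]; simp
      rw [this, norm_zero]; linarith
    have hWp : wm ^ Q.card ≤ ∏ i ∈ Q, w i (x i) := by
      rw [← prod_const]
      refine prod_le_prod (fun i _ => hwm0.le) fun i hi => ?_
      rcases hwm i (x i) with h | h
      · exact absurd (prod_eq_zero hi h) hW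
      · exact h
    have hWm : 0 < wm ^ Q.card := pow_pos hwm0 _
    have hW0 : 0 < ∏ i ∈ Q, w i (x i) := lt_of_lt_of_le hWm hWp
    have h1 : ‖gE w μ Q (es I m z) x‖ ≤ gR w μ Q (fun _ => ((I.card : ℝ) * 2) ^ m) x :=
      (norm_gE_le H Q _ x).trans (gR_mono H Q (fun y =>
        e0_norm_le I _ (by norm_num) (hb y) m) x)
    rw [gR_const] at h1
    refine h1.trans (le_trans ?_ hRHS)
    rw [div_le_one hW0]
    refine le_trans ?_ hWp
    refine le_trans ?_ hsmall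
    have hm0 := marg_nonneg H.prob Q x
    calc marg μ Q x * ((I.card : ℝ) * 2) ^ m ≤ δ * (2 * (Fintype.card ι : ℝ)) ^ m :=
          mul_le_mul hx.le hpI (by positivity) hδ.le
      _ = 1 * (2 * (Fintype.card ι : ℝ)) ^ m * δ := by ring
      _ ≤ _ := mul_le_mul_of_nonneg_right (mul_le_mul_of_nonneg_right hk1 hpow) hδ.le
  · rcases Nat.lt_or_ge I.card m with hmI | hmI
    · have : gE w μ Q (es I m z) x = 0 := by
        unfold gE es e0
        rw [powersetCard_eq_empty.mpr hmI]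
        simp
      rw [this, norm_zero]; linarith
    obtain ⟨N, hN⟩ : ∃ N, N = Fintype.card ι + 1 := ⟨_, rfl⟩
    have hIN : I.card < N := by
      have := card_le_univ I
      omega
    have hmN : m < N := lt_of_le_of_lt hmI hIN
    have hN0 : N ≠ 0 := by omega
    have hNpos : (0 : ℝ) < N := by exact_mod_cast Nat.pos_of_ne_zero hN0
    have hξ := Complex.isPrimitiveRoot_exp N hN0
    obtain ⟨ξ, hξd⟩ : ∃ ξ, ξ = Complex.exp (2 * Real.pi * Complex.I / N) := ⟨_, rfl⟩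
    rw [← hξd] at hξ
    have hξn : ‖ξ‖ = 1 := hξ.norm'_eq_one hN0
    obtain ⟨T, hT⟩ : ∃ T, T = Real.log (1 / δ) := ⟨_, rfl⟩
    have hexpT : Real.exp T = 1 / δ := by rw [hT, Real.exp_log (by positivity)]
    have hT1 : δ * Real.exp T ≤ 1 := by rw [hexpT]; field_simp; exact le_rfl
    have hwp1 : wm ^ Q.card ≤ 1 := pow_le_one₀ hwm0.le hwm1
    have hT2 : N * ((I.card : ℝ) * 2) ^ m ≤ Real.exp T := by
      rw [hexpT, le_div_iff₀ hδ, hN]
      refine le_trans (mul_le_mul_of_nonneg_right (mul_le_mul_of_nonneg_left hpI (by positivity))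
        hδ.le) (hsmall.trans hwp1)
    have hs0 : 0 < l0 / 4 := by positivity
    have hs1 : l0 / 4 ≤ 1 := by linarith
    have h1 : ‖gE w μ Q (es I m z) x‖ ≤ gR w μ Q (fun y => 2 * (1 / (l0 / 4)) ^ m * ((1 / N) *
        ∑ k ∈ range N, Real.exp (min (∑ i ∈ I, ((((l0 / 4 : ℝ) : ℂ) * ξ ^ k * z i (y i)).re
          + (l0 / 4) ^ 2 * ‖z i (y i)‖ ^ 2 / 2)) T))) x :=
      (norm_gE_le H Q _ x).trans (gR_mono H Q (fun y =>
        e0_le_exp I (fun i => z i (y i)) hmN hIN hs0 hs1 hξ (by norm_num) (hb y) hT2) x)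
    rw [gR_const_mul, gR_const_mul, gR_sum] at h1
    have h2 : ∀ k ∈ range N, gR w μ Q (fun y => Real.exp (min (∑ i ∈ I,
        ((((l0 / 4 : ℝ) : ℂ) * ξ ^ k * z i (y i)).re + (l0 / 4) ^ 2 * ‖z i (y i)‖ ^ 2 / 2)) T)) x
        ≤ Real.exp (cost Q + 1) := by
      intro k _
      have hω : ‖ξ ^ k‖ = 1 := by rw [norm_pow, hξn, one_pow]
      have h3 := gibbs H hδ hE hlam0 hQ hx hI
        (fun i b => (((l0 / 4 : ℝ) : ℂ) * ξ ^ k * z i b).re + (l0 / 4) ^ 2 * ‖z i b‖ ^ 2 / 2)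
        hl0 hlam hT1 zero_le_one (le_trans (sum_le_sum fun i hi =>
          tau_site (H.w_nonneg i) (hz2 i hi) (hz0 i hi) hl0 hl1 hω) hzs)
      refine h3.trans (Real.exp_le_exp.mpr ?_)
      linarith
    have h4 := sum_le_sum h2
    rw [sum_const, card_range, nsmul_eq_mul] at h4
    have e4 : (1 : ℝ) / (l0 / 4) = 4 / l0 := by field_simp
    rw [e4] at h1
    refine h1.trans ?_
    have h5 : 1 / (N : ℝ) * ∑ k ∈ range N, gR w μ Q (fun y => Real.exp (min (∑ i ∈ I,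
        ((((l0 / 4 : ℝ) : ℂ) * ξ ^ k * z i (y i)).re + (l0 / 4) ^ 2 * ‖z i (y i)‖ ^ 2 / 2)) T)) x
        ≤ Real.exp (cost Q + 1) := by
      rw [one_div, inv_mul_le_iff₀ hNpos]
      exact h4
    exact mul_le_mul_of_nonneg_left h5 (by positivity)

end

end Vale.Agent.P042.H104
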