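import Vale.Agent.P042.H104.Heavy

/-! Change of the reference weights in the energy increment inequality: own marginals, lazy own
marginals; the form with lower bounds on the densities of the pins. -/

namespace Vale.Agent.P042.H104

open Finset Vale.Agent.P042.H779 Vale.Agent.P042.H779.Ab Vale.Agent.P042.H482

set_option linter.unusedSectionVars false

section
variable {ι : Type*} [Fintype ι] [DecidableEq ι] {V : ι → Type*} [∀ i, Fintype (V i)]
  [∀ i, DecidableEq (V i)] {w p : ∀ i, V i → ℝ} {μ : (∀ i, V i) → ℝ}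

lemma phi_change {t r ξ : ℝ} (ht : 0 ≤ t) (hξ0 : 0 < ξ) (hξ1 : ξ ≤ 1) (hr : ξ ≤ r) :
    r * phi (t / r) ≤ 2 * phi t + 2 / ξ * phi r := by
  have hr0 : 0 < r := lt_of_lt_of_le hξ0 hr
  have h1 : r * phi (t / r) = phi t - 1 + r + t * (-Real.log r) := by
    unfold phi
    rcases ht.eq_or_lt with rfl | ht
    · simp
    · rw [Real.log_div ht.ne' hr0.ne']
      field_simp
      ring
  have h2 := young ht (-Real.log r)
  rw [Real.exp_neg, Real.exp_log hr0] at h2
  have h3 : (r - 1) ^ 2 / r ≤ 2 / ξ * phi r := by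
    have hφ := phi_nonneg hr0.le
    rcases le_total 1 r with h1r | h1r
    · have h4 := sq_le_phi hr0.le h1r le_rfl
      rw [div_le_iff₀ hr0]
      have h5 : 2 ≤ 2 / ξ := by rw [le_div_iff₀ hξ0]; linarith
      calc (r - 1) ^ 2 ≤ 2 * r * phi r := h4
        _ = 2 * phi r * r := by ring
        _ ≤ 2 / ξ * phi r * r := by
            refine mul_le_mul_of_nonneg_right (mul_le_mul_of_nonneg_right h5 hφ) hr0.le
    · have h4 := sq_le_phi hr0.le le_rfl h1r
      rw [div_le_iff₀ hr0]
      calc (r - 1) ^ 2 ≤ 2 * 1 * phi r := h4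
        _ = 2 * phi r := by ring
        _ ≤ 2 / ξ * phi r * r := by
            have h5 : 1 ≤ 1 / ξ * r := by rw [one_div, inv_mul_eq_div, le_div_iff₀ hξ0]; linarith
            calc 2 * phi r = 2 * phi r * 1 := (mul_one _).symm
              _ ≤ 2 * phi r * (1 / ξ * r) := mul_le_mul_of_nonneg_left h5 (by positivity)
              _ = _ := by ring
  have h6 : r⁻¹ - 1 - 1 + r = (r - 1) ^ 2 / r := by field_simp; ring
  rw [h1]
  linarith

/-- **change of the reference in EIc** -/
theorem EIc_change (H : Ref w μ) (Hp : Ref p μ) {ok : Finset ι → Prop} {lam : ι → ℝ}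
    {cost : Finset ι → ℝ} {δ : ℝ} (hδ : 0 < δ) (hlam0 : ∀ i, 0 ≤ lam i) {ξ : ℝ} (hξ0 : 0 < ξ)
    (hξ1 : ξ ≤ 1) (hpw : ∀ i b, p i b = 0 ∨ ξ * w i b ≤ p i b) (hwp : ∀ i b, w i b = 0 → p i b = 0)
    {a1 : ℝ} (ha1 : ∑ i, lam i * ∑ b, w i b * phi (p i b / w i b) ≤ a1)
    (hE : EIc w μ ok lam cost δ) :
    EIc p μ ok (fun i => lam i / 2)
      (fun Q => cost Q + 1 / ξ * a1 + Q.card * Real.log (1 / ξ)) δ := by
  intro Q hQ x hx f hf hf' hce
  have h1 := hE Q hQ x hx f hf hf' hce
  have hx0 : 0 < marg μ Q x := lt_of_lt_of_le hδ hx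
  have hpos : ∀ i b, 0 ≤ w i b * phi (p i b / w i b) := fun i b =>
    mul_nonneg (H.w_nonneg i b) (phi_nonneg (div_nonneg (Hp.w_nonneg i b) (H.w_nonneg i b)))
  -- one coordinate
  have h2 : ∀ i, ∑ b, p i b * phi (mi μ Q f i x b / p i b)
      ≤ 2 * ∑ b, w i b * phi (mi μ Q f i x b / w i b)
        + 2 / ξ * ∑ b, w i b * phi (p i b / w i b) := by
    intro i
    rw [mul_sum, mul_sum, ← sum_add_distrib]
    refine sum_le_sum fun b _ => ?_
    have hm := mi_nonneg H.prob Q hf i x b
    have hφ1 : 0 ≤ w i b * phi (mi μ Q f i x b / w i b) :=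
      mul_nonneg (H.w_nonneg i b) (phi_nonneg (div_nonneg hm (H.w_nonneg i b)))
    rcases hpw i b with h0 | h0
    · rw [h0]
      have := hpos i b
      rw [h0] at this
      have h3 : 0 ≤ 2 / ξ * (w i b * phi (0 / w i b)) := mul_nonneg (by positivity) this
      simp only [zero_mul]
      linarith
    · by_cases hw : w i b = 0
      · rw [hwp i b hw, hw]; simp
      have hw' : 0 < w i b := lt_of_le_of_ne (H.w_nonneg i b) (Ne.symm hw)
      have hr : ξ ≤ p i b / w i b := by rwa [le_div_iff₀ hw']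
      have hp0 : 0 < p i b := lt_of_lt_of_le (mul_pos hξ0 hw') h0
      have h3 := phi_change (t := mi μ Q f i x b / w i b) (div_nonneg hm hw'.le) hξ0 hξ1 hr
      have h4 : mi μ Q f i x b / w i b / (p i b / w i b) = mi μ Q f i x b / p i b := by
        field_simp
      rw [h4] at h3
      have h5 := mul_le_mul_of_nonneg_left h3 hw'.le
      have h6 : w i b * (p i b / w i b * phi (mi μ Q f i x b / p i b))
          = p i b * phi (mi μ Q f i x b / p i b) := by field_simp
      rw [h6] at h5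
      refine h5.trans (le_of_eq ?_)
      ring
  have h3 : ∑ i ∈ univ \ Q, lam i / 2 * ∑ b, p i b * phi (mi μ Q f i x b / p i b)
      ≤ ∑ i ∈ univ \ Q, lam i * ∑ b, w i b * phi (mi μ Q f i x b / w i b) + 1 / ξ * a1 := by
    have e1 : ∑ i ∈ univ \ Q, lam i / 2 * ∑ b, p i b * phi (mi μ Q f i x b / p i b)
        ≤ ∑ i ∈ univ \ Q, (lam i * ∑ b, w i b * phi (mi μ Q f i x b / w i b)
          + 1 / ξ * (lam i * ∑ b, w i b * phi (p i b / w i b))) := by
      refine sum_le_sum fun i _ => ?_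
      have := mul_le_mul_of_nonneg_left (h2 i) (by have := hlam0 i; positivity : 0 ≤ lam i / 2)
      refine this.trans (le_of_eq ?_)
      ring
    refine e1.trans ?_
    rw [sum_add_distrib, ← mul_sum]
    have e2 : ∑ i ∈ univ \ Q, lam i * ∑ b, w i b * phi (p i b / w i b) ≤ a1 :=
      le_trans (sum_le_sum_of_subset_of_nonneg (subset_univ _) fun i _ _ =>
        mul_nonneg (hlam0 i) (sum_nonneg fun b _ => hpos i b)) ha1
    have e3 : 1 / ξ * ∑ i ∈ univ \ Q, lam i * ∑ b, w i b * phi (p i b / w i b) ≤ 1 / ξ * a1 :=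
      mul_le_mul_of_nonneg_left e2 (by positivity)
    linarith
  -- the densities
  have hWp := prod_w_pos_of_marg Hp.prob Hp.w_nonneg Hp.ac hx0
  have hW := prod_w_pos_of_marg H.prob H.w_nonneg H.ac hx0
  have h4 : Real.log (gdw p μ Q x)
      ≤ Real.log (gdw w μ Q x) + Q.card * Real.log (1 / ξ) := by
    have e1 : ξ ^ Q.card * ∏ i ∈ Q, w i (x i) ≤ ∏ i ∈ Q, p i (x i) := by
      rw [← prod_const, ← prod_mul_distrib]
      refine prod_le_prod (fun i _ => mul_nonneg hξ0.le (H.w_nonneg i _)) fun i hi => ?_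
      rcases hpw i (x i) with h | h
      · exact absurd (prod_eq_zero hi h) hWp.ne'
      · exact h
    have e2 : gdw p μ Q x ≤ gdw w μ Q x * (1 / ξ) ^ Q.card := by
      unfold gdw
      rw [one_div, inv_pow, div_mul_eq_mul_div, ← div_eq_mul_inv, div_div]
      refine div_le_div_of_nonneg_left hx0.le (by positivity) ?_
      exact e1
    have hgp : 0 < gdw p μ Q x := div_pos hx0 hWp
    have hgw : 0 < gdw w μ Q x := div_pos hx0 hW
    calc Real.log (gdw p μ Q x) ≤ Real.log (gdw w μ Q x * (1 / ξ) ^ Q.card) :=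
          Real.log_le_log hgp e2
      _ = Real.log (gdw w μ Q x) + Q.card * Real.log (1 / ξ) := by
          rw [Real.log_mul hgw.ne' (by positivity), Real.log_pow]
  linarith

/-- the form with a lower bound on the density of the pins -/
lemma EIc_of_gdw (H : Ref w μ) (hw1 : ∀ i b, w i b ≤ 1) {ok : Finset ι → Prop} {lam : ι → ℝ}
    {cost : Finset ι → ℝ} {δ : ℝ} (hδ : 0 < δ)
    (hE : ∀ Q, ok Q → ∀ x, δ ≤ gdw w μ Q x → ∀ f : (∀ i, V i) → ℝ, (∀ y, 0 ≤ f y) →
      (∀ y, f y ≤ 1 / δ) → ce μ Q f x = 1 →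
      ∑ i ∈ univ \ Q, lam i * ∑ b, w i b * phi (mi μ Q f i x b / w i b)
        ≤ ce μ Q (fun y => f y * Real.log (f y)) x + cost Q - Real.log (gdw w μ Q x)) :
    EIc w μ ok lam cost δ := by
  intro Q hQ x hx
  refine hE Q hQ x (hx.trans ?_)
  have hx0 : 0 < marg μ Q x := lt_of_lt_of_le hδ hx
  have hW := prod_w_pos_of_marg H.prob H.w_nonneg H.ac hx0
  unfold gdw
  rw [le_div_iff₀ hW]
  have : ∏ i ∈ Q, w i (x i) ≤ 1 := prod_le_one (fun i _ => H.w_nonneg i _) fun i _ => hw1 i _
  nlinarith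

lemma Ref.w_le_one (H : Ref w μ) (i : ι) (b : V i) : w i b ≤ 1 := by
  rw [← H.w_sum i]
  exact single_le_sum (fun b _ => H.w_nonneg i b) (mem_univ b)

/-- the total energy of the own marginals -/
lemma own_energy (H : Ref w μ) {ok : Finset ι → Prop} {lam : ι → ℝ}
    {cost : Finset ι → ℝ} {δ : ℝ} (hδ : 0 < δ) (hδ1 : δ ≤ 1) (hok : ok ∅)
    (hE : EIc w μ ok lam cost δ) :
    ∑ i, lam i * ∑ b, w i b * phi (m1 μ i b / w i b) ≤ cost ∅ := by
  by_cases hne : Nonempty (∀ i, V i)
  swap
  · exfalso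
    have h1 := H.prob.sum_eq
    rw [not_nonempty_iff] at hne
    simp at h1
  obtain ⟨x⟩ := hne
  have hm : marg μ ∅ x = 1 := marg_empty H.prob x
  have h1 := hE ∅ hok x (by rw [hm]; exact hδ1) (fun _ => 1) (fun _ => zero_le_one)
    (fun _ => by rw [le_div_iff₀ hδ]; linarith) (ce_one (by rw [hm]; exact one_pos))
  have h3 : ce μ ∅ (fun _ => (1 : ℝ) * Real.log 1) x = 0 := by
    unfold ce
    simp
  have h4 : gdw w μ ∅ x = 1 := by unfold gdw; rw [hm]; simp
  rw [h3, h4, Real.log_one, zero_add, sub_zero, sdiff_empty] at h1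
  refine le_trans (le_of_eq ?_) h1
  refine sum_congr rfl fun i _ => ?_
  congr 1
  refine sum_congr rfl fun b _ => ?_
  congr 3
  unfold mi ce m1
  rw [hm, div_one]
  refine sum_congr rfl fun y _ => ?_
  simp

/-- lazy own marginals -/
noncomputable def lz (w : ∀ i, V i → ℝ) (μ : (∀ i, V i) → ℝ) (i : ι) (b : V i) : ℝ :=
  (m1 μ i b + w i b) / 2

lemma Ref.lazy (H : Ref w μ) : Ref (lz w μ) μ where
  prob := H.prob
  w_nonneg := fun i b => by
    unfold lz
    have := m1_nonneg H.prob i b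
    have := H.w_nonneg i b
    positivity
  w_sum := fun i => by
    unfold lz
    rw [← sum_div, sum_add_distrib, m1_sum H.prob, H.w_sum]
    norm_num
  ac := fun i b h => by
    unfold lz at h
    have := m1_nonneg H.prob i b
    have := H.w_nonneg i b
    linarith

lemma phi_half {r : ℝ} (hr : 0 ≤ r) : phi ((r + 1) / 2) ≤ phi r / 2 := by
  -- convexity through the tangent line at the midpoint
  have h0 : 0 < (r + 1) / 2 := by positivity
  obtain ⟨L, hL⟩ : ∃ L, L = Real.log ((r + 1) / 2) := ⟨_, rfl⟩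
  have h1 : r * L ≤ phi r + ((r + 1) / 2 - 1) := by
    have := young hr (Real.log ((r + 1) / 2))
    rw [Real.exp_log h0] at this
    rw [hL]
    exact this
  have h2 : 1 * L ≤ phi 1 + ((r + 1) / 2 - 1) := by
    have := young zero_le_one (Real.log ((r + 1) / 2))
    rw [Real.exp_log h0] at this
    rw [hL]
    exact this
  have h3 : phi 1 = 0 := by unfold phi; simp
  have h4 : phi ((r + 1) / 2) = (r + 1) / 2 * L - (r + 1) / 2 + 1 := by unfold phi; rw [hL]
  rw [h4]
  linarith

/-- **`Data` for the lazy own marginals** -/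
theorem Data.lazy {lam : ι → ℝ} {a : ℝ} {c : ι → ℝ} {d : ℕ} {δ wm : ℝ}
    (D : Data w μ lam a c d δ wm)
    (hsmall : ((Fintype.card ι + 1 : ℕ) : ℝ) * (2 * Fintype.card ι + 1) ^ d * δ ≤ (wm / 2) ^ d) :
    Data (lz w μ) μ (fun i => lam i / 2) (2 * a) (fun i => c i + Real.log 2) d δ (wm / 2) where
  ref := Ref.lazy D.ref
  δ_pos := D.δ_pos
  eic := by
    have hk : (0 : ℝ) ≤ (Fintype.card ι : ℝ) := Nat.cast_nonneg _
    have hδ1 : δ ≤ 1 := by
      have h1 := D.small
      have h2 : wm ^ d ≤ 1 := pow_le_one₀ D.wm_pos.le D.wm_le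
      have h3 : (1 : ℝ) ≤ ((Fintype.card ι + 1 : ℕ) : ℝ) * (2 * Fintype.card ι + 1) ^ d := by
        have h4 : (1 : ℝ) ≤ (2 * (Fintype.card ι : ℝ) + 1) ^ d := one_le_pow₀ (by linarith)
        have h5 : (1 : ℝ) ≤ ((Fintype.card ι + 1 : ℕ) : ℝ) := by push_cast; linarith
        nlinarith
      have := D.δ_pos
      nlinarith
    have he : ∑ i, lam i * ∑ b, w i b * phi (lz w μ i b / w i b) ≤ a / 2 := by
      have h1 := own_energy D.ref D.δ_pos hδ1 (ok := fun Q => Q.card ≤ d) (by simp) D.eic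
      rw [sum_empty, add_zero] at h1
      have h2 : ∀ i, lam i * ∑ b, w i b * phi (lz w μ i b / w i b)
          ≤ (lam i * ∑ b, w i b * phi (m1 μ i b / w i b)) / 2 := by
        intro i
        rw [mul_div_assoc]
        refine mul_le_mul_of_nonneg_left ?_ (D.lam_nonneg i)
        rw [sum_div]
        refine sum_le_sum fun b _ => ?_
        by_cases hw : w i b = 0
        · rw [hw]; simp
        have hw' : 0 < w i b := lt_of_le_of_ne (D.ref.w_nonneg i b) (Ne.symm hw)
        have e1 : lz w μ i b / w i b = (m1 μ i b / w i b + 1) / 2 := by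
          unfold lz; field_simp
        rw [e1, mul_div_assoc]
        exact mul_le_mul_of_nonneg_left
          (phi_half (div_nonneg (m1_nonneg D.ref.prob i b) hw'.le)) hw'.le
      calc ∑ i, lam i * ∑ b, w i b * phi (lz w μ i b / w i b)
          ≤ ∑ i, (lam i * ∑ b, w i b * phi (m1 μ i b / w i b)) / 2 := sum_le_sum fun i _ => h2 i
        _ = (∑ i, lam i * ∑ b, w i b * phi (m1 μ i b / w i b)) / 2 := by rw [sum_div]
        _ ≤ a / 2 := by linarith
    have h := EIc_change D.ref (Ref.lazy D.ref) D.δ_pos D.lam_nonneg (ξ := 1 / 2) (by norm_num)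
      (by norm_num) (fun i b => Or.inr (by
        unfold lz
        have := m1_nonneg D.ref.prob i b
        linarith)) (fun i b hw => by unfold lz; rw [hw, D.ref.ac i b hw]; norm_num) he D.eic
    intro Q hQ x hx f hf hf' hce
    have h1 := h Q hQ x hx f hf hf' hce
    beta_reduce at h1 ⊢
    have e1 : a + ∑ i ∈ Q, c i + 1 / (1 / 2) * (a / 2) + (Q.card : ℝ) * Real.log (1 / (1 / 2))
        = 2 * a + ∑ i ∈ Q, (c i + Real.log 2) := by
      rw [sum_add_distrib, sum_const, nsmul_eq_mul, one_div_one_div]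
      ring
    rw [e1] at h1
    exact h1
  lam_nonneg := fun i => by have := D.lam_nonneg i; positivity
  a_nonneg := by have := D.a_nonneg; positivity
  c_nonneg := fun i => add_nonneg (D.c_nonneg i) (Real.log_nonneg (by norm_num))
  wm_pos := by have := D.wm_pos; positivity
  wm_le := by have := D.wm_le; have := D.wm_pos; linarith
  atoms := fun i b => by
    unfold lz
    rcases D.atoms i b with h | h
    · left; rw [h, D.ref.ac i b h]; norm_num
    · right
      have := m1_nonneg D.ref.prob i b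
      linarith
  small := hsmall

end

end Vale.Agent.P042.H104
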