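import Vale.Agent.P042.H104.ThmI

/-! Theorem H for all pins in the form consumed by the mixed scales, from the law-level data
(`H2Hyp`); only the free high sites enter the numbers, the pins may contain any site. -/

namespace Vale.Agent.P042.H104

open Finset Vale.Agent.P042.H779 Vale.Agent.P042.H779.Ab
open Vale.Agent.P042.H685 (gp hh WW nr ov PFam H2Hyp Kp)

set_option linter.unusedSectionVars false

section
variable {ι : Type*} [Fintype ι] [DecidableEq ι] {V : ι → Type*} [∀ i, Fintype (V i)]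
  [∀ i, DecidableEq (V i)] {u p : ∀ i, V i → ℝ} {μ : (∀ i, V i) → ℝ}
  {rt : ι → ℝ} {a : ℝ} {c : ι → ℝ} {d0 : ℕ} {δ wm : ℝ}
  {I : Finset ι} {l0 cm rm ξ K1 : ℝ} {dd : ℕ} {D : ℝ}

/-- 685's energy theorem, the numbers only see the free sites -/
theorem energy_I (H : H2Hyp u p μ rt a c d0 δ wm I l0 cm rm ξ K1 dd D) {A : Finset ι}
    (hAI : Disjoint A I) (x : ∀ i, V i) {s1 d l : ℕ} (hl : 1 ≤ l)
    (hln : Real.log (4 * I.card) ≤ l) (hd : 4 * s1 * l ≤ d) (hdd : A.card + d ≤ dd)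
    (hd0 : A.card + s1 ≤ d0) {D1 : ℝ} (hD1 : D + A.card * Real.log (1 / wm) ≤ D1)
    {e q : ℕ} (he : 1 ≤ e) (hq : Even q) (hqe : q * e ≤ s1)
    {P R G C1 : ℝ} (hP : 1 ≤ P) (hR : 2 * (Real.exp cm * rm / ξ) ≤ R)
    (hR' : 4 * Real.exp cm / l0 ≤ R)
    (hQ : 2 * (ξ⁻¹ * H956.KL d D1 (Real.exp cm * rm) + K1) ≤ R * P)
    (hG : 1 ≤ G) (hC : 1 ≤ C1) (heG : (e : ℝ) ≤ G)
    (hlo : Real.log (∑ i ∈ I, Fintype.card (V i) : ℕ) ≤ G) (hlk : Real.log (3 * I.card) ≤ G)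
    (hOm : ((∑ i ∈ I, Fintype.card (V i) : ℕ) : ℝ) ≤ P ^ (2 * C1))
    (hGP : 16 * G ^ 2 ≤ P ^ (2 / 3 : ℝ))
    (hql : P ^ (2 / 3 : ℝ) ≤ 2 * (q : ℝ)) (hqu : 2 * (q : ℝ) ≤ 8 * P ^ (2 / 3 : ℝ)) :
    WW p (H685.gr (gp (gdw p μ) A x) I) e
      ≤ Kp a c A ^ 2 * (1440 * G * R ^ 2 * P ^ (1 - 1 / (12 * C1))) ^ e := by
  have hξ := H.xi_pos
  have hrm := H.rm_one
  have hcm := Real.one_le_exp H.cm_nonneg
  have hR0 : 1 ≤ Real.exp cm * rm / ξ := by
    rw [le_div_iff₀ hξ, one_mul]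
    have := H.xi_one
    nlinarith
  have hR1 : 1 ≤ R := by linarith
  have hP23 : 0 < P ^ (2 / 3 : ℝ) := Real.rpow_pos_of_pos (by linarith) _
  have hq1 : 1 ≤ q := by
    have : (0 : ℝ) < q := by linarith
    exact_mod_cast this
  have hes : e ≤ s1 := by
    calc e = 1 * e := (one_mul e).symm
      _ ≤ q * e := Nat.mul_le_mul_right e hq1
      _ ≤ s1 := hqe
  rcases Nat.eq_zero_or_pos I.card with hI | hI
  · -- no free sites
    have hI' : I = ∅ := card_eq_zero.mp hI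
    have h0 : WW p (H685.gr (gp (gdw p μ) A x) I) e = 0 := by
      rw [WW_gr_eq, hI', powersetCard_eq_empty.mpr (by rw [card_empty]; omega), sum_empty]
    rw [h0]
    have := Real.rpow_nonneg (by linarith : (0 : ℝ) ≤ P) (1 - 1 / (12 * C1))
    positivity
  · refine thmH_I ((H685.pfam_ref H.data.ref).pin A x) I he hq hI hP hR0 hR hG hC (H685.Kp_pos A)
      ?_ heG hlo hlk hOm hGP hql hqu ?_ ?_ ?_
    · exact (H685.gdw_le_cost' H.data (by omega) x).trans (H685.exp_le_Kp A)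
    · intro l' hl'
      exact H.LI hAI x hl hln hd hdd hd0 hD1 hQ (hl'.trans hqe)
    · intro S hS d' hSd v
      exact H.PH hAI x hl hln hd hdd hd0 hD1 hQ hS (by omega) v
    · intro S hS hSe v f _ hf
      exact H.INJ x (by omega) hR' hS hSe v f hf

/-- the numbers of Theorem H, for all pins of order at most `b0` -/
structure HNum (Hi : Finset ι) (V : ι → Type*) [∀ i, Fintype (V i)] (d0 : ℕ) (wm l0 cm rm ξ K1 : ℝ)
    (dd : ℕ) (D : ℝ) (b0 s1 d l q : ℕ) (D1 P R G C1 : ℝ) : Prop where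
  l_one : 1 ≤ l
  l_log : Real.log (4 * Hi.card) ≤ l
  d_le : 4 * s1 * l ≤ d
  dd_le : b0 + d ≤ dd
  d0_le : b0 + s1 ≤ d0
  D1_le : D + b0 * Real.log (1 / wm) ≤ D1
  q_even : Even q
  q_s1 : q * b0 ≤ s1
  P_one : 1 ≤ P
  R_one : 2 * (Real.exp cm * rm / ξ) ≤ R
  R_two : 4 * Real.exp cm / l0 ≤ R
  RP : 2 * (ξ⁻¹ * H956.KL d D1 (Real.exp cm * rm) + K1) ≤ R * P
  G_one : 1 ≤ G
  C1_one : 1 ≤ C1
  b0_G : (b0 : ℝ) ≤ G
  log_G : Real.log (∑ i ∈ Hi, Fintype.card (V i) : ℕ) ≤ G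
  card_G : Real.log (3 * Hi.card) ≤ G
  card_P : ((∑ i ∈ Hi, Fintype.card (V i) : ℕ) : ℝ) ≤ P ^ (2 * C1)
  G_P : 16 * G ^ 2 ≤ P ^ (2 / 3 : ℝ)
  q_lo : P ^ (2 / 3 : ℝ) ≤ 2 * (q : ℝ)
  q_hi : 2 * (q : ℝ) ≤ 8 * P ^ (2 / 3 : ℝ)

/-- **Theorem H for all pins: 161's `PH`.** -/
theorem PH_all (H : H2Hyp u p μ rt a c d0 δ wm I l0 cm rm ξ K1 dd D) {b0 s1 d l q : ℕ}
    {D1 P R G C1 : ℝ} (N : HNum I V d0 wm l0 cm rm ξ K1 dd D b0 s1 d l q D1 P R G C1) :
    H161.PH p (H742.gr p μ) I (fun i => (2 * Real.exp 3 * Real.exp a) ^ 2 * Real.exp (2 * c i))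
      ((2 * Real.exp 3 * Real.exp a) ^ 2 * (1440 * G * R ^ 2 * P ^ (1 - 1 / (12 * C1)))) b0 := by
  have hR1 : 0 ≤ R := by
    have h1 := N.R_one
    have := H.xi_pos
    have := H.rm_one
    have : 0 ≤ Real.exp cm * rm / ξ := by positivity
    linarith
  have hG := N.G_one
  have hP := N.P_one
  have hX : 0 ≤ 1440 * G * R ^ 2 * P ^ (1 - 1 / (12 * C1)) := by
    have := Real.rpow_nonneg (by linarith : (0 : ℝ) ≤ P) (1 - 1 / (12 * C1))
    positivity
  have hK0 : 1 ≤ 2 * Real.exp 3 := by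
    have := Real.one_le_exp (show (0 : ℝ) ≤ 3 by norm_num)
    linarith
  have hlw : 0 ≤ Real.log (1 / wm) := Real.log_nonneg (by
    rw [le_div_iff₀ H.data.wm_pos, one_mul]
    exact H.data.wm_le)
  refine ph_of_WW H.data.ref H.data.a_nonneg H.data.c_nonneg hK0 hX ?_ ?_
  · intro A hA w
    exact H685.gdw_le_cost' H.data (by have := N.d0_le; omega) w
  · intro A e he hAe w
    have hsub : I \ A ⊆ I := sdiff_subset
    have HI := H.mono hsub
    have hAI : Disjoint A (I \ A) := disjoint_sdiff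
    have hcard : (I \ A).card ≤ I.card := card_le_card hsub
    have hcardR : ((I \ A).card : ℝ) ≤ I.card := by exact_mod_cast hcard
    have hsum : ∑ i ∈ I \ A, Fintype.card (V i) ≤ ∑ i ∈ I, Fintype.card (V i) :=
      sum_le_sum_of_subset hsub
    have hsumR : ((∑ i ∈ I \ A, Fintype.card (V i) : ℕ) : ℝ)
        ≤ ((∑ i ∈ I, Fintype.card (V i) : ℕ) : ℝ) := by exact_mod_cast hsum
    have hlogc : ∀ {s t : ℝ}, 0 ≤ s → s ≤ t → ∀ {B : ℝ}, 0 ≤ B → Real.log t ≤ B →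
        Real.log s ≤ B := by
      intro s t hs hst B hB ht
      rcases hs.eq_or_lt with h | h
      · rw [← h, Real.log_zero]; exact hB
      · exact (Real.log_le_log h hst).trans ht
    have hAb : A.card ≤ b0 := by omega
    have hAbR : (A.card : ℝ) ≤ b0 := by exact_mod_cast hAb
    have heb : e ≤ b0 := by omega
    have hebR : (e : ℝ) ≤ b0 := by exact_mod_cast heb
    have hE := energy_I HI hAI w (s1 := s1) (d := d) (l := l) N.l_one
      (hlogc (by positivity) (by linarith) (Nat.cast_nonneg l) N.l_log) N.d_le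
      (by have := N.dd_le; omega) (by have := N.d0_le; omega) (D1 := D1)
      (le_trans (by
        have := mul_le_mul_of_nonneg_right hAbR hlw
        linarith) N.D1_le) he N.q_even
      (le_trans (Nat.mul_le_mul_left q heb) N.q_s1) N.P_one N.R_one N.R_two N.RP N.G_one
      N.C1_one (hebR.trans N.b0_G)
      (hlogc (Nat.cast_nonneg _) hsumR (by linarith) N.log_G)
      (hlogc (by positivity) (by linarith) (by linarith) N.card_G)
      (hsumR.trans N.card_P) N.G_P N.q_lo N.q_hi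
    refine hE.trans (le_of_eq ?_)
    unfold Kp
    rw [Real.exp_add, show (2 * (Real.exp (a + ∑ i ∈ A, c i) * Real.exp 3))
      = 2 * Real.exp 3 * Real.exp (a + ∑ i ∈ A, c i) by ring]

end

end Vale.Agent.P042.H104
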