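import Vale.Agent.P042.H161.Pin
import Vale.Agent.P042.H685.Pin
import Vale.Agent.P042.H104.Own

/-! From Theorem H for all pinned laws (685 / 121 vocabulary) to the hypothesis `PH` of the mixed
scales (161).  The pinned sets may contain any site (in particular an extra site outside `Hi`). -/

namespace Vale.Agent.P042.H104

open Finset Vale.Agent.P042.H779 Vale.Agent.P042.H779.Ab Vale.Agent.P042.H482
open Vale.Agent.P042.H685 (gp hh WW nr ov)

set_option linter.unusedSectionVars false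

section
variable {ι : Type*} [Fintype ι] [DecidableEq ι] {V : ι → Type*} [∀ i, Fintype (V i)]
  [∀ i, DecidableEq (V i)]

lemma hp_eq_hh (g : Finset ι → (∀ i, V i) → ℝ) (A U : Finset ι) (w x : ∀ i, V i) :
    H161.hp g A U (A.piecewise w x) = hh (gp g A w) U x := rfl

lemma gr_eq (lam : ∀ i, V i → ℝ) (mu : (∀ i, V i) → ℝ) : H742.gr lam mu = gdw lam mu := rfl

lemma W_eq_pw (lam : ∀ i, V i → ℝ) (x : ∀ i, V i) : H461.W lam x = pw lam x := rfl

lemma WW_gr_eq (lam : ∀ i, V i → ℝ) (g : Finset ι → (∀ i, V i) → ℝ) (I : Finset ι) (e : ℕ) :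
    WW lam (H685.gr g I) e = ∑ U ∈ powersetCard e I, ∑ x, pw lam x * hh g U x ^ 2 := by
  have h1 : ∑ U ∈ powersetCard e I, nr lam (hh (H685.gr g I)) U
      = ∑ U with U.card = e, nr lam (hh (H685.gr g I)) U := by
    refine sum_subset (fun U hU => ?_) fun U hU hU' => ?_
    · rw [mem_powersetCard] at hU
      rw [mem_filter]
      exact ⟨mem_univ _, hU.2⟩
    · rw [mem_filter] at hU
      have hUI : ¬ U ⊆ I := fun h => hU' (mem_powersetCard.mpr ⟨h, hU.2⟩)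
      unfold nr
      refine sum_eq_zero fun x _ => ?_
      rw [H685.hh_gr, if_neg hUI]
      simp
  unfold WW
  rw [← h1]
  refine sum_congr rfl fun U hU => ?_
  rw [mem_powersetCard] at hU
  unfold nr
  refine sum_congr rfl fun x _ => ?_
  rw [H685.hh_gr, if_pos hU.1]

/-- the left side of 161's `PH` is the energy of the pinned, restricted family -/
lemma PH_lhs (lam : ∀ i, V i → ℝ) (mu : (∀ i, V i) → ℝ) (Hi A : Finset ι) (e : ℕ)
    (w : ∀ i, V i) :
    ∑ U ∈ powersetCard e (Hi \ A), ∑ x, H461.W lam x *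
        H161.hp (H742.gr lam mu) A U (A.piecewise w x) ^ 2
      = WW lam (H685.gr (gp (gdw lam mu) A w) (Hi \ A)) e := by
  rw [WW_gr_eq]
  rfl

/-- level zero -/
lemma WW_zero {lam : ∀ i, V i → ℝ} {g : Finset ι → (∀ i, V i) → ℝ} {m : ℝ}
    (F : H685.PFam lam g m) (I : Finset ι) :
    WW lam (H685.gr g I) 0 = m ^ 2 := by
  rw [WW_gr_eq, powersetCard_zero, sum_singleton]
  have h1 : ∀ x, hh g ∅ x = m := fun x => by simp [hh, F.g_empty]
  simp_rw [h1]
  rw [← sum_mul]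
  have h2 : ∑ x, Ab.pw lam x = 1 := F.dfam.pw_sum
  rw [h2, one_mul]

/-- **Theorem H for all pins ⟹ `PH`.** -/
theorem ph_of_WW {lam : ∀ i, V i → ℝ} {mu : (∀ i, V i) → ℝ} (H : Ref lam mu) {Hi : Finset ι}
    {a : ℝ} {c : ι → ℝ} {K0 X : ℝ} {b0 : ℕ} (ha : 0 ≤ a) (hc : ∀ i, 0 ≤ c i) (hK0 : 1 ≤ K0)
    (hX : 0 ≤ X)
    (h0 : ∀ A : Finset ι, A.card ≤ b0 → ∀ w, gdw lam mu A w ≤ Real.exp (a + ∑ i ∈ A, c i))
    (h1 : ∀ (A : Finset ι) (e : ℕ), 1 ≤ e → A.card + e ≤ b0 → ∀ w,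
      WW lam (H685.gr (gp (gdw lam mu) A w) (Hi \ A)) e
        ≤ (K0 * Real.exp (a + ∑ i ∈ A, c i)) ^ 2 * X ^ e) :
    H161.PH lam (H742.gr lam mu) Hi (fun i => (K0 * Real.exp a) ^ 2 * Real.exp (2 * c i))
      ((K0 * Real.exp a) ^ 2 * X) b0 := by
  intro A e hAe w
  rw [PH_lhs]
  have hF := H685.pfam_ref H
  have hKa : 1 ≤ (K0 * Real.exp a) ^ 2 := by
    have h3 : 1 ≤ Real.exp a := Real.one_le_exp ha
    have h4 : 1 ≤ K0 * Real.exp a := by nlinarith
    exact one_le_pow₀ h4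
  have hprod : ∏ i ∈ A, ((K0 * Real.exp a) ^ 2 * Real.exp (2 * c i))
      = ((K0 * Real.exp a) ^ 2) ^ A.card * Real.exp (∑ i ∈ A, c i) ^ 2 := by
    rw [prod_mul_distrib, prod_const, ← Real.exp_sum, ← mul_sum, ← Real.exp_nat_mul]
    norm_num
  have hE0 : 0 < Real.exp (∑ i ∈ A, c i) ^ 2 := by positivity
  have hE1 : 1 ≤ Real.exp (∑ i ∈ A, c i) ^ 2 :=
    one_le_pow₀ (Real.one_le_exp (sum_nonneg fun i _ => hc i))
  rw [hprod]
  rcases Nat.eq_zero_or_pos e with rfl | he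
  · rw [WW_zero (hF.pin A w) (Hi \ A), pow_zero, mul_one]
    have hg0 : 0 ≤ gdw lam mu A w := hF.g_nonneg A w
    rcases A.eq_empty_or_nonempty with rfl | hA
    · rw [hF.g_empty w]
      simp
    · have h3 := h0 A (by omega) w
      have hcard : 1 ≤ A.card := hA.card_pos
      calc gdw lam mu A w ^ 2 ≤ Real.exp (a + ∑ i ∈ A, c i) ^ 2 := pow_le_pow_left₀ hg0 h3 2
        _ = Real.exp a ^ 2 * Real.exp (∑ i ∈ A, c i) ^ 2 := by rw [Real.exp_add, mul_pow]
        _ ≤ ((K0 * Real.exp a) ^ 2) ^ A.card * Real.exp (∑ i ∈ A, c i) ^ 2 := by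
            refine mul_le_mul_of_nonneg_right ?_ hE0.le
            calc Real.exp a ^ 2 ≤ (K0 * Real.exp a) ^ 2 := by
                  refine pow_le_pow_left₀ (Real.exp_pos _).le ?_ 2
                  have := Real.exp_pos a
                  nlinarith
              _ = ((K0 * Real.exp a) ^ 2) ^ 1 := (pow_one _).symm
              _ ≤ _ := pow_le_pow_right₀ hKa hcard
  · refine (h1 A e he hAe w).trans ?_
    have h3 : (K0 * Real.exp (a + ∑ i ∈ A, c i)) ^ 2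
        = (K0 * Real.exp a) ^ 2 * Real.exp (∑ i ∈ A, c i) ^ 2 := by
      rw [Real.exp_add, ← mul_assoc, mul_pow]
    rw [h3, mul_pow _ X]
    have h4 : (K0 * Real.exp a) ^ 2 ≤ ((K0 * Real.exp a) ^ 2) ^ e :=
      le_self_pow₀ hKa (by omega)
    have h5 : 1 ≤ ((K0 * Real.exp a) ^ 2) ^ A.card := one_le_pow₀ hKa
    have hXe : 0 ≤ X ^ e := pow_nonneg hX e
    calc (K0 * Real.exp a) ^ 2 * Real.exp (∑ i ∈ A, c i) ^ 2 * X ^ e
        ≤ ((K0 * Real.exp a) ^ 2) ^ e * Real.exp (∑ i ∈ A, c i) ^ 2 * X ^ e := by gcongr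
      _ = 1 * (((K0 * Real.exp a) ^ 2) ^ e * Real.exp (∑ i ∈ A, c i) ^ 2 * X ^ e) := by ring
      _ ≤ ((K0 * Real.exp a) ^ 2) ^ A.card *
          (((K0 * Real.exp a) ^ 2) ^ e * Real.exp (∑ i ∈ A, c i) ^ 2 * X ^ e) := by
            gcongr
      _ = _ := by ring

end

end Vale.Agent.P042.H104
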