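import Vale.Agent.P042.H104.Heavy
import Vale.Agent.P042.H685.Pin

/-! The injective norm bound for the tensors of a pinned measure. -/

namespace Vale.Agent.P042.H104

open Finset Vale.Agent.P042.H779 Vale.Agent.P042.H779.Ab Vale.Agent.P042.H482 Vale.Agent.P042.H685

set_option linter.unusedSectionVars false

section
variable {ι : Type*} [Fintype ι] [DecidableEq ι] {V : ι → Type*} [∀ i, Fintype (V i)]
  [∀ i, DecidableEq (V i)] {w : ∀ i, V i → ℝ} {μ : (∀ i, V i) → ℝ}

lemma sum_prod_pi (F : ∀ i, V i → ℂ) : ∑ x : (∀ i, V i), ∏ i, F i (x i) = ∏ i, ∑ b, F i b := by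
  rw [← Fintype.piFinset_univ, ← Finset.prod_univ_sum]

/-- one conditioned product -/
lemma cond_prod (hw1 : ∀ i, ∑ b, w i b = 1) {C E : Finset ι} (hCE : C ⊆ E) (f : ∀ i, V i → ℂ)
    (y : ∀ i, V i) (hy : ∀ i ∈ C, w i (y i) ≠ 0) :
    ∑ x : (∀ i, V i), (if (∀ i ∈ C, y i = x i) then (1 : ℂ) else 0) *
      ((pw w x : ℂ) / ((∏ i ∈ C, w i (x i) : ℝ) : ℂ)) * ∏ i ∈ E, f i (x i)
      = (∏ i ∈ C, f i (y i)) * ∏ i ∈ E \ C, ∑ b, (w i b : ℂ) * f i b := by
  have h1 : ∀ x : (∀ i, V i), (if (∀ i ∈ C, y i = x i) then (1 : ℂ) else 0) *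
      ((pw w x : ℂ) / ((∏ i ∈ C, w i (x i) : ℝ) : ℂ)) * ∏ i ∈ E, f i (x i)
      = ∏ i, ((if i ∈ C then (if y i = x i then 1 else 0) else (w i (x i) : ℂ)) *
        (if i ∈ E then f i (x i) else 1)) := by
    intro x
    rw [prod_mul_distrib]
    congr 1
    · by_cases h : ∀ i ∈ C, y i = x i
      · rw [if_pos h, one_mul]
        unfold Ab.pw
        have hC : ∏ i ∈ C, w i (x i) ≠ 0 := prod_ne_zero_iff.mpr fun i hi => by
          rw [← h i hi]; exact hy i hi
        have hC' : ((∏ i ∈ C, w i (x i) : ℝ) : ℂ) ≠ 0 := by exact_mod_cast hC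
        rw [div_eq_iff hC']
        have e1 : ∏ i, (if i ∈ C then (if y i = x i then (1 : ℂ) else 0) else (w i (x i) : ℂ))
            = ∏ i, (if i ∈ C then (1 : ℂ) else (w i (x i) : ℂ)) := by
          refine prod_congr rfl fun i _ => ?_
          by_cases hi : i ∈ C
          · rw [if_pos hi, if_pos hi, if_pos (h i hi)]
          · rw [if_neg hi, if_neg hi]
        rw [e1]
        have e2 : ((∏ i ∈ C, w i (x i) : ℝ) : ℂ)
            = ∏ i, (if i ∈ C then (w i (x i) : ℂ) else 1) := by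
          rw [Complex.ofReal_prod, prod_ite_mem, univ_inter]
        rw [e2, ← prod_mul_distrib, Complex.ofReal_prod]
        refine prod_congr rfl fun i _ => ?_
        by_cases hi : i ∈ C
        · rw [if_pos hi, if_pos hi, one_mul]
        · rw [if_neg hi, if_neg hi, mul_one]
      · rw [if_neg h, zero_mul]
        push Not at h
        obtain ⟨i, hi, hne⟩ := h
        symm
        refine prod_eq_zero (mem_univ i) ?_
        rw [if_pos hi, if_neg hne]
    · rw [prod_ite_mem, univ_inter]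
  rw [sum_congr rfl fun x _ => h1 x,
    sum_prod_pi (fun i b => (if i ∈ C then (if y i = b then 1 else 0) else (w i b : ℂ)) *
        (if i ∈ E then f i b else 1))]
  have h2 : ∀ i, ∑ b, (if i ∈ C then (if y i = b then 1 else 0) else (w i b : ℂ)) *
        (if i ∈ E then f i b else 1)
      = (if i ∈ C then f i (y i) else 1) * (if i ∈ E \ C then ∑ b, (w i b : ℂ) * f i b else 1) := by
    intro i
    by_cases hiC : i ∈ C
    · have hiE : i ∈ E := hCE hiC
      have hiEC : i ∉ E \ C := fun hc => (mem_sdiff.mp hc).2 hiC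
      simp only [if_pos hiC, if_pos hiE, if_neg hiEC]
      simp
    · by_cases hiE : i ∈ E
      · have hiEC : i ∈ E \ C := mem_sdiff.mpr ⟨hiE, hiC⟩
        simp only [if_neg hiC, if_pos hiE, if_pos hiEC]
        simp
      · have hiEC : i ∉ E \ C := fun hc => hiE (mem_sdiff.mp hc).1
        simp only [if_neg hiC, if_neg hiE, if_neg hiEC]
        have : ∑ b, (w i b : ℂ) = 1 := by exact_mod_cast hw1 i
        simp [this]
  rw [prod_congr rfl fun i _ => h2 i, prod_mul_distrib, prod_ite_mem, prod_ite_mem, univ_inter,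
    univ_inter]

/-- one term of the tensor -/
lemma core_term (H : Ref w μ) {Q C E : Finset ι} (hQE : Disjoint Q E) (hCE : C ⊆ E)
    (f : ∀ i, V i → ℂ) (u : ∀ i, V i) :
    ∑ x, (pw w x : ℂ) * ((gp (gdw w μ) Q u C x : ℂ) * ∏ i ∈ E, f i (x i))
      = (∏ i ∈ E \ C, ∑ b, (w i b : ℂ) * f i b) * gE w μ Q (fun y => ∏ i ∈ C, f i (y i)) u := by
  have hQC : Disjoint Q C := disjoint_of_subset_right hCE hQE
  have h1 : ∀ x, (pw w x : ℂ) * ((gp (gdw w μ) Q u C x : ℂ) * ∏ i ∈ E, f i (x i))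
      = ∑ y, (if (∀ i ∈ Q, y i = u i) then (μ y : ℂ) / ((∏ i ∈ Q, w i (u i) : ℝ) : ℂ) else 0) *
        ((if (∀ i ∈ C, y i = x i) then (1 : ℂ) else 0) *
      ((pw w x : ℂ) / ((∏ i ∈ C, w i (x i) : ℝ) : ℂ)) * ∏ i ∈ E, f i (x i)) := by
    intro x
    have e1 : ∏ i ∈ Q ∪ C, w i (ov Q u x i) = (∏ i ∈ Q, w i (u i)) * ∏ i ∈ C, w i (x i) := by
      rw [prod_union hQC]
      congr 1
      · exact prod_congr rfl fun i hi => by rw [ov_mem hi]
      · exact prod_congr rfl fun i hi => by rw [ov_notMem (disjoint_right.mp hQC hi)]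
    have e2 : marg μ (Q ∪ C) (ov Q u x)
        = ∑ y, (if (∀ i ∈ Q, y i = u i) then (if (∀ i ∈ C, y i = x i) then μ y else 0) else 0) := by
      unfold marg
      refine sum_congr rfl fun y _ => ?_
      have hiff : (∀ i ∈ Q ∪ C, y i = ov Q u x i) ↔ ((∀ i ∈ Q, y i = u i) ∧ ∀ i ∈ C, y i = x i) := by
        constructor
        · intro h
          refine ⟨fun i hi => ?_, fun i hi => ?_⟩
          · rw [h i (mem_union_left _ hi), ov_mem hi]
          · rw [h i (mem_union_right _ hi), ov_notMem (disjoint_right.mp hQC hi)]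
        · rintro ⟨h2, h3⟩ i hi
          by_cases hiQ : i ∈ Q
          · rw [ov_mem hiQ, h2 i hiQ]
          · rw [ov_notMem hiQ]
            rcases mem_union.mp hi with h | h
            · exact absurd h hiQ
            · exact h3 i h
      by_cases h2 : ∀ i ∈ Q, y i = u i
      · by_cases h3 : ∀ i ∈ C, y i = x i
        · rw [if_pos h2, if_pos h3, if_pos (hiff.mpr ⟨h2, h3⟩)]
        · rw [if_pos h2, if_neg h3, if_neg (fun hc => h3 (hiff.mp hc).2)]
      · rw [if_neg h2, if_neg (fun hc => h2 (hiff.mp hc).1)]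
    unfold gp gdw
    rw [e1, e2, Complex.ofReal_div, Complex.ofReal_sum, sum_div, sum_mul, mul_sum]
    refine sum_congr rfl fun y _ => ?_
    by_cases h2 : ∀ i ∈ Q, y i = u i
    · by_cases h3 : ∀ i ∈ C, y i = x i
      · simp only [if_pos h2, if_pos h3, Complex.ofReal_mul]
        by_cases hc1 : ((∏ i ∈ Q, w i (u i) : ℝ) : ℂ) = 0
        · rw [hc1]; simp
        by_cases hc2 : ((∏ i ∈ C, w i (x i) : ℝ) : ℂ) = 0
        · rw [hc2]; simp
        field_simp
      · simp only [if_pos h2, if_neg h3]; simp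
    · simp only [if_neg h2]; simp
  rw [sum_congr rfl fun x _ => h1 x, sum_comm]
  simp only [← mul_sum]
  unfold gE
  rw [mul_div_assoc', mul_sum, sum_div]
  refine sum_congr rfl fun y _ => ?_
  by_cases h2 : ∀ i ∈ Q, y i = u i
  · simp only [if_pos h2]
    by_cases hy : μ y = 0
    · rw [hy]; simp
    · rw [cond_prod H.w_sum hCE f y (fun i _ hc => hy (mu_eq_zero H hc rfl))]
      ring
  · simp only [if_neg h2]; simp

/-- **the tensors are the correlations of centred one-coordinate functions** -/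
lemma core (H : Ref w μ) {Q E : Finset ι} (hQE : Disjoint Q E) (f : ∀ i, V i → ℂ) (u : ∀ i, V i) :
    ∑ x, (pw w x : ℂ) * ((hh (gp (gdw w μ) Q u) E x : ℂ) * ∏ i ∈ E, f i (x i))
      = gE w μ Q (fun y => ∏ i ∈ E, cen w f i (y i)) u := by
  have h1 : ∀ x, (pw w x : ℂ) * ((hh (gp (gdw w μ) Q u) E x : ℂ) * ∏ i ∈ E, f i (x i))
      = ∑ C ∈ E.powerset, (-1) ^ (E.card - C.card) *
        ((pw w x : ℂ) * ((gp (gdw w μ) Q u C x : ℂ) * ∏ i ∈ E, f i (x i))) := by
    intro x
    unfold hh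
    push_cast
    rw [sum_mul, mul_sum]
    exact sum_congr rfl fun C _ => by ring
  rw [sum_congr rfl fun x _ => h1 x, sum_comm]
  simp only [← mul_sum]
  rw [sum_congr rfl fun C hC => by rw [core_term H hQE (mem_powerset.mp hC) f u]]
  have h2 : ∀ y : ∀ i, V i, ∏ i ∈ E, cen w f i (y i)
      = ∑ C ∈ E.powerset, (-1) ^ (E.card - C.card) *
        ((∏ i ∈ E \ C, ∑ b, (w i b : ℂ) * f i b) * ∏ i ∈ C, f i (y i)) := by
    intro y
    have e1 : ∀ i ∈ E, cen w f i (y i) = f i (y i) + (-1) * ∑ b, (w i b : ℂ) * f i b := by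
      intro i _
      unfold cen
      ring
    rw [prod_congr rfl e1, prod_add]
    refine sum_congr rfl fun C hC => ?_
    rw [prod_mul_distrib, prod_const, card_sdiff_of_subset (mem_powerset.mp hC)]
    ring
  have h3 : gE w μ Q (fun y => ∏ i ∈ E, cen w f i (y i)) u
      = gE w μ Q (fun y => ∑ C ∈ E.powerset, (-1) ^ (E.card - C.card) *
        ((∏ i ∈ E \ C, ∑ b, (w i b : ℂ) * f i b) * ∏ i ∈ C, f i (y i))) u := by
    congr 1
    funext y
    exact h2 y
  rw [h3]
  have h4 : ∀ (s : Finset (Finset ι)) (F : Finset ι → (∀ i, V i) → ℂ),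
      gE w μ Q (fun y => ∑ C ∈ s, F C y) u = ∑ C ∈ s, gE w μ Q (F C) u := by
    intro s F
    unfold gE
    rw [← sum_div, sum_comm]
    congr 1
    refine sum_congr rfl fun y _ => ?_
    split_ifs
    · rw [mul_sum]
    · simp
  rw [h4]
  refine sum_congr rfl fun C _ => ?_
  rw [gE_const_mul, gE_const_mul]

lemma gE_sum {κ : Type*} (s : Finset κ) (Q : Finset ι) (F : κ → (∀ i, V i) → ℂ) (u : ∀ i, V i) :
    gE w μ Q (fun y => ∑ k ∈ s, F k y) u = ∑ k ∈ s, gE w μ Q (F k) u := by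
  unfold gE
  rw [← sum_div, sum_comm]
  congr 1
  refine sum_congr rfl fun y _ => ?_
  split_ifs
  · rw [mul_sum]
  · simp

lemma e0_restrict {I' I : Finset ι} (h : I' ⊆ I) {u : ι → ℂ} (hu : ∀ i ∈ I, i ∉ I' → u i = 0)
    (n : ℕ) : e0 I n u = e0 I' n u := by
  unfold e0
  symm
  refine sum_subset (powersetCard_mono h) fun E hE hE' => ?_
  rw [mem_powersetCard] at hE
  have : ¬ E ⊆ I' := fun hc => hE' (mem_powersetCard.mpr ⟨hc, hE.2⟩)
  obtain ⟨i, hiE, hiI'⟩ := not_subset.mp this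
  exact prod_eq_zero hiE (hu i (hE.1 hiE) hiI')

lemma gp_gp (g : Finset ι → (∀ i, V i) → ℝ) (A S : Finset ι) (u v : ∀ i, V i) :
    gp (gp g A u) S v = gp g (A ∪ S) (ov A u v) := by
  funext C x
  unfold gp
  rw [union_assoc]
  congr 1
  funext j
  by_cases hA : j ∈ A
  · rw [ov_mem hA, ov_mem (mem_union_left _ hA), ov_mem hA]
  · by_cases hS : j ∈ S
    · rw [ov_notMem hA, ov_mem hS, ov_mem (mem_union_right _ hS), ov_notMem hA]
    · rw [ov_notMem hA, ov_notMem hS, ov_notMem (by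
        rw [mem_union]; rintro (h | h)
        · exact hA h
        · exact hS h)]

variable {lam : ι → ℝ} {a : ℝ} {c : ι → ℝ} {d : ℕ} {δ wm : ℝ}

/-- **(INJ): the injective norm of the tensors of a pinned measure**, `A` pinned sites, `S` frozen
legs, `n` free legs. -/
theorem inj (D : Data w μ lam a c d δ wm) {l0 cm : ℝ} (hl0 : 0 < l0) (hl1 : l0 ≤ 1)
    (hcm : 0 ≤ cm) {A S : Finset ι} {n : ℕ} (hd : A.card + S.card + n ≤ d)
    (f : ∀ i, V i → ℂ) (hlam : ∀ i, f i ≠ 0 → l0 ≤ lam i) (hc : ∀ i, f i ≠ 0 → c i ≤ cm)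
    (hf2 : ∑ i, ∑ b, w i b * ‖f i b‖ ^ 2 ≤ 1) (u v : ∀ i, V i) :
    ‖∑ E ∈ powersetCard n (univ \ (A ∪ S)), ∑ x, (pw w x : ℂ) *
      ((hh (gp (gdw w μ) A u) (S ∪ E) (ov S v x) : ℂ) * ∏ i ∈ E, f i (x i))‖
      ≤ 2 ^ S.card * (2 * (4 * Real.exp cm / l0) ^ n * Real.exp (a + ∑ i ∈ A ∪ S, c i + 3)) := by
  classical
  obtain ⟨I, hI⟩ : ∃ I, I = (univ \ (A ∪ S)).filter (fun i => f i ≠ 0) := ⟨_, rfl⟩
  have hgloc : ∀ C, Loc C (gp (gdw w μ) A u C) := by
    intro C x y hxy
    unfold gp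
    refine loc_gdw (w := w) (μ := μ) _ _ _ fun i hi => ?_
    by_cases hA : i ∈ A
    · rw [ov_mem hA, ov_mem hA]
    · rw [ov_notMem hA, ov_notMem hA]
      rcases mem_union.mp hi with h | h
      · exact absurd h hA
      · exact hxy i h
  have hcen0 : ∀ i, f i = 0 → ∀ b, cen w f i b = 0 := by
    intro i hi b
    unfold cen
    rw [hi]
    simp
  -- rewrite the sum
  have h1 : ∀ E ∈ powersetCard n (univ \ (A ∪ S)), ∑ x, (pw w x : ℂ) *
      ((hh (gp (gdw w μ) A u) (S ∪ E) (ov S v x) : ℂ) * ∏ i ∈ E, f i (x i))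
      = ∑ S' ∈ S.powerset, (-1) ^ (S.card - S'.card) *
        gE w μ (A ∪ S') (fun y => ∏ i ∈ E, cen w f i (y i)) (ov A u v) := by
    intro E hE
    rw [mem_powersetCard] at hE
    have hSE : Disjoint S E := by
      rw [disjoint_right]
      intro i hi hc'
      exact (mem_sdiff.mp (hE.1 hi)).2 (mem_union_right _ hc')
    have hASE : Disjoint (A ∪ S) E := by
      rw [disjoint_right]
      intro i hi hc'
      exact (mem_sdiff.mp (hE.1 hi)).2 hc'
    have e1 : ∀ x, (pw w x : ℂ) *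
        ((hh (gp (gdw w μ) A u) (S ∪ E) (ov S v x) : ℂ) * ∏ i ∈ E, f i (x i))
        = ∑ S' ∈ S.powerset, (-1) ^ (S.card - S'.card) * ((pw w x : ℂ) *
          ((hh (gp (gdw w μ) (A ∪ S') (ov A u v)) E x : ℂ) * ∏ i ∈ E, f i (x i))) := by
      intro x
      rw [hh_frozen hgloc hSE v x]
      push_cast
      rw [sum_mul, mul_sum]
      refine sum_congr rfl fun S' _ => ?_
      rw [gp_gp]
      ring
    rw [sum_congr rfl fun x _ => e1 x, sum_comm]
    refine sum_congr rfl fun S' hS' => ?_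
    rw [← mul_sum]
    congr 1
    refine core D.ref ?_ f (ov A u v)
    exact disjoint_of_subset_left (union_subset_union_right (mem_powerset.mp hS')) hASE
  rw [sum_congr rfl h1, sum_comm]
  have h2 : ∀ S' ∈ S.powerset, ‖∑ E ∈ powersetCard n (univ \ (A ∪ S)),
      (-1) ^ (S.card - S'.card) * gE w μ (A ∪ S') (fun y => ∏ i ∈ E, cen w f i (y i)) (ov A u v)‖
      ≤ 2 * (4 * Real.exp cm / l0) ^ n * Real.exp (a + ∑ i ∈ A ∪ S, c i + 3) := by
    intro S' hS'
    have hS's := mem_powerset.mp hS'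
    rw [← mul_sum, ← gE_sum, norm_mul, norm_pow, norm_neg, norm_one, one_pow, one_mul]
    have e2 : gE w μ (A ∪ S') (fun y => ∑ E ∈ powersetCard n (univ \ (A ∪ S)),
          ∏ i ∈ E, cen w f i (y i)) (ov A u v)
        = gE w μ (A ∪ S') (es I n (cen w f)) (ov A u v) := by
      congr 1
      funext y
      show e0 (univ \ (A ∪ S)) n (fun i => cen w f i (y i)) = es I n (cen w f) y
      rw [e0_restrict (I' := I) (by rw [hI]; exact filter_subset _ _)]
      · rfl
      · intro i hi hiI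
        refine hcen0 i ?_ _
        by_contra hne
        exact hiI (by rw [hI]; exact mem_filter.mpr ⟨hi, hne⟩)
    rw [e2]
    have hsub : ∀ i ∈ I, i ∉ A ∪ S ∧ f i ≠ 0 := by
      intro i hi
      rw [hI, mem_filter, mem_sdiff] at hi
      exact ⟨hi.1.2, hi.2⟩
    have hdis : Disjoint (A ∪ S') I := by
      rw [disjoint_right]
      intro i hi hc'
      exact (hsub i hi).1 (union_subset_union_right hS's hc')
    have hcard : (A ∪ S').card + n ≤ d := by
      have h3 := card_union_le A S'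
      have h4 := card_le_card hS's
      omega
    have hf2' : ∑ i ∈ I, ∑ b, w i b * ‖f i b‖ ^ 2 ≤ 1 :=
      le_trans (sum_le_sum_of_subset_of_nonneg (subset_univ I) fun i _ _ => sum_nonneg fun b _ =>
        mul_nonneg (D.ref.w_nonneg i b) (by positivity)) hf2
    have h3 := inj_law D hl0 hl1 hcm hdis hcard (fun i hi => hlam i (hsub i hi).2)
      (fun i hi => hc i (hsub i hi).2) (ov A u v) f hf2'
    refine h3.trans ?_
    refine mul_le_mul_of_nonneg_left (Real.exp_le_exp.mpr ?_) (by positivity)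
    have h4 : ∑ i ∈ A ∪ S', c i ≤ ∑ i ∈ A ∪ S, c i :=
      sum_le_sum_of_subset_of_nonneg (union_subset_union_right hS's) fun i _ _ => D.c_nonneg i
    linarith
  refine (norm_sum_le _ _).trans ((sum_le_sum h2).trans ?_)
  rw [sum_const, card_powerset, nsmul_eq_mul]
  push_cast
  exact le_rfl

end

end Vale.Agent.P042.H104
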