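import Vale.Agent.P042.H104.PHo
import Vale.Agent.P042.H685.H2Thm

/-! Theorem H where only the free sites count: the family restricted to `I` is transported to the
subtype of `I` (the other sites, in particular one extra site with a huge alphabet, do not enter
the numbers). -/

namespace Vale.Agent.P042.H104

open Finset Vale.Agent.P042.H779 Vale.Agent.P042.H779.Ab
open Vale.Agent.P042.H685 (gp hh WW nr ov PFam)

set_option linter.unusedSectionVars false

section
variable {ι : Type*} [Fintype ι] [DecidableEq ι] {V : ι → Type*} [∀ i, Fintype (V i)]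
  [∀ i, DecidableEq (V i)]

/-- extension of a point on `I` by the base point -/
def ex (I : Finset ι) (x₀ : ∀ i, V i) (y : ∀ i : {i // i ∈ I}, V i.1) : ∀ i, V i :=
  fun i => if h : i ∈ I then y ⟨i, h⟩ else x₀ i

lemma ex_mem {I : Finset ι} {x₀ : ∀ i, V i} {y : ∀ i : {i // i ∈ I}, V i.1} (i : {i // i ∈ I}) :
    ex I x₀ y i.1 = y i := by
  unfold ex; rw [dif_pos i.2]

lemma ex_notMem {I : Finset ι} {x₀ : ∀ i, V i} {y : ∀ i : {i // i ∈ I}, V i.1} {i : ι}
    (h : i ∉ I) : ex I x₀ y i = x₀ i := by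
  unfold ex; rw [dif_neg h]

/-- sets of sites of the subtype -/
def mp {I : Finset ι} (C : Finset {i // i ∈ I}) : Finset ι := C.map (Function.Embedding.subtype _)

lemma mem_mp {I : Finset ι} {C : Finset {i // i ∈ I}} {i : {i // i ∈ I}} : i.1 ∈ mp C ↔ i ∈ C := by
  unfold mp
  rw [mem_map]
  constructor
  · rintro ⟨j, hj, h⟩
    have : j = i := Subtype.ext h
    exact this ▸ hj
  · intro h
    exact ⟨i, h, rfl⟩

lemma mp_sub {I : Finset ι} (C : Finset {i // i ∈ I}) : mp C ⊆ I := by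
  intro i hi
  unfold mp at hi
  rw [mem_map] at hi
  obtain ⟨j, _, rfl⟩ := hi
  exact j.2

lemma mp_card {I : Finset ι} (C : Finset {i // i ∈ I}) : (mp C).card = C.card := card_map _

lemma mp_univ (I : Finset ι) : mp (univ : Finset {i // i ∈ I}) = I := by
  unfold mp
  rw [univ_eq_attach]
  exact attach_map_val

lemma mp_union {I : Finset ι} (C D : Finset {i // i ∈ I}) : mp (C ∪ D) = mp C ∪ mp D :=
  map_union _ _

lemma mp_sdiff {I : Finset ι} (C D : Finset {i // i ∈ I}) : mp (C \ D) = mp C \ mp D := by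
  ext i
  constructor
  · intro h
    have hI := mp_sub _ h
    have h1 := (mem_mp (i := ⟨i, hI⟩)).mp h
    rw [mem_sdiff] at h1
    exact mem_sdiff.mpr ⟨mem_mp.mpr h1.1, fun hc => h1.2 ((mem_mp (i := ⟨i, hI⟩)).mp hc)⟩
  · intro h
    rw [mem_sdiff] at h
    have hI := mp_sub _ h.1
    exact (mem_mp (i := ⟨i, hI⟩)).mpr (mem_sdiff.mpr ⟨(mem_mp (i := ⟨i, hI⟩)).mp h.1,
      fun hc => h.2 ((mem_mp (i := ⟨i, hI⟩)).mpr hc)⟩)

lemma mp_insert {I : Finset ι} (i : {i // i ∈ I}) (C : Finset {i // i ∈ I}) :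
    mp (insert i C) = insert i.1 (mp C) := map_insert _ _ _

lemma mp_powersetCard {I : Finset ι} (C : Finset {i // i ∈ I}) (n : ℕ) {R : Type*}
    [AddCommMonoid R] (F : Finset ι → R) :
    ∑ U ∈ powersetCard n (mp C), F U = ∑ U ∈ powersetCard n C, F (mp U) := by
  unfold mp
  rw [powersetCard_map, sum_map]
  rfl

lemma mp_powerset {I : Finset ι} (C : Finset {i // i ∈ I}) {R : Type*}
    [AddCommMonoid R] (F : Finset ι → R) :
    ∑ U ∈ (mp C).powerset, F U = ∑ U ∈ C.powerset, F (mp U) := by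
  symm
  refine sum_bij (fun U _ => mp U) (fun U hU => ?_) (fun U _ U' _ h => ?_) (fun U hU => ?_)
    fun U _ => rfl
  · rw [mem_powerset] at hU ⊢
    exact map_subset_map.mpr hU
  · exact map_injective _ h
  · rw [mem_powerset] at hU
    refine ⟨U.subtype (· ∈ I), ?_, ?_⟩
    · rw [mem_powerset]
      intro i hi
      rw [mem_subtype] at hi
      exact mem_mp.mp (hU hi)
    · unfold mp
      rw [subtype_map]
      exact filter_true_of_mem fun i hi => mp_sub C (hU hi)

/-- sums of functions of the coordinates in `I` -/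
lemma sum_res {R : Type*} [CommRing R] {I : Finset ι} {W : ∀ i, V i → R}
    (hW : ∀ i, i ∉ I → ∑ a, W i a = 1) (x₀ : ∀ i, V i) {F : (∀ i, V i) → R}
    (hF : ∀ x y, (∀ i ∈ I, x i = y i) → F x = F y) :
    ∑ x, (∏ i, W i (x i)) * F x
      = ∑ y : ∀ i : {i // i ∈ I}, V i.1, (∏ i : {i // i ∈ I}, W i.1 (y i)) * F (ex I x₀ y) := by
  classical
  rw [← (Equiv.piEquivPiSubtypeProd (fun i => i ∈ I) V).symm.sum_comp, Fintype.sum_prod_type]
  refine sum_congr rfl fun y _ => ?_
  have h1 : ∀ z : ∀ i : {i // i ∉ I}, V i.1,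
      (∏ i, W i ((Equiv.piEquivPiSubtypeProd (fun i => i ∈ I) V).symm (y, z) i))
        * F ((Equiv.piEquivPiSubtypeProd (fun i => i ∈ I) V).symm (y, z))
      = (∏ i : {i // i ∉ I}, W i.1 (z i)) * ((∏ i : {i // i ∈ I}, W i.1 (y i)) * F (ex I x₀ y)) := by
    intro z
    have e1 : F ((Equiv.piEquivPiSubtypeProd (fun i => i ∈ I) V).symm (y, z)) = F (ex I x₀ y) := by
      refine hF _ _ fun i hi => ?_
      simp [Equiv.piEquivPiSubtypeProd, ex, hi]
    have e2 : ∏ i, W i ((Equiv.piEquivPiSubtypeProd (fun i => i ∈ I) V).symm (y, z) i)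
        = (∏ i : {i // i ∈ I}, W i.1 (y i)) * ∏ i : {i // i ∉ I}, W i.1 (z i) := by
      rw [← Fintype.prod_subtype_mul_prod_subtype (fun i => i ∈ I)]
      congr 1
      · refine prod_congr (by ext; simp) fun i _ => ?_
        simp [Equiv.piEquivPiSubtypeProd, i.2]
      · refine prod_congr (by ext; simp) fun i _ => ?_
        simp [Equiv.piEquivPiSubtypeProd, i.2]
    rw [e1, e2]
    ring
  rw [sum_congr rfl fun z _ => h1 z, ← sum_mul]
  have h2 : ∑ z : ∀ i : {i // i ∉ I}, V i.1, ∏ i : {i // i ∉ I}, W i.1 (z i) = 1 := by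
    rw [← Fintype.prod_sum]
    exact Fintype.prod_eq_one _ fun i => hW i.1 i.2
  rw [h2, one_mul]

variable {w : ∀ i, V i → ℝ} {g : Finset ι → (∀ i, V i) → ℝ} {m : ℝ}

/-- the family on the subtype -/
def tr (I : Finset ι) (x₀ : ∀ i, V i) (g : Finset ι → (∀ i, V i) → ℝ)
    (C : Finset {i // i ∈ I}) (y : ∀ i : {i // i ∈ I}, V i.1) : ℝ := g (mp C) (ex I x₀ y)

lemma ex_update {I : Finset ι} (x₀ : ∀ i, V i) (y : ∀ i : {i // i ∈ I}, V i.1)
    (i : {i // i ∈ I}) (a : V i.1) :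
    ex I x₀ (Function.update y i a) = Function.update (ex I x₀ y) i.1 a := by
  funext j
  by_cases hj : j ∈ I
  · by_cases hji : (⟨j, hj⟩ : {i // i ∈ I}) = i
    · subst hji
      rw [ex_mem ⟨j, hj⟩, Function.update_self, Function.update_self]
    · have h2 : j ≠ i.1 := fun h => hji (Subtype.ext h)
      rw [Function.update_of_ne h2, ex_mem ⟨j, hj⟩, ex_mem ⟨j, hj⟩, Function.update_of_ne hji]
  · have h2 : j ≠ i.1 := fun h => hj (h ▸ i.2)
    rw [Function.update_of_ne h2, ex_notMem hj, ex_notMem hj]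

lemma ex_ov {I : Finset ι} (x₀ : ∀ i, V i) (S : Finset {i // i ∈ I})
    (u y : ∀ i : {i // i ∈ I}, V i.1) :
    ex I x₀ (ov S u y) = ov (mp S) (ex I x₀ u) (ex I x₀ y) := by
  funext j
  by_cases hj : j ∈ I
  · by_cases hS : (⟨j, hj⟩ : {i // i ∈ I}) ∈ S
    · have h2 : j ∈ mp S := (mem_mp (i := ⟨j, hj⟩)).mpr hS
      rw [H685.ov_mem h2, ex_mem ⟨j, hj⟩, ex_mem ⟨j, hj⟩, H685.ov_mem hS]
    · have h2 : j ∉ mp S := fun h => hS ((mem_mp (i := ⟨j, hj⟩)).mp h)
      rw [H685.ov_notMem h2, ex_mem ⟨j, hj⟩, ex_mem ⟨j, hj⟩, H685.ov_notMem hS]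
  · have h2 : j ∉ mp S := fun h => hj (mp_sub S h)
    rw [H685.ov_notMem h2, ex_notMem hj, ex_notMem hj]

lemma pfam_tr (F : PFam w g m) (I : Finset ι) (x₀ : ∀ i, V i) :
    PFam (fun i : {i // i ∈ I} => w i.1) (tr I x₀ g) m where
  w_nonneg := fun i a => F.w_nonneg i.1 a
  w_sum := fun i => F.w_sum i.1
  g_nonneg := fun C y => F.g_nonneg _ _
  g_empty := fun y => F.g_empty _
  loc := by
    intro C x y hxy
    unfold tr
    refine F.loc _ _ _ fun j hj => ?_
    have hI := mp_sub C hj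
    rw [ex_mem ⟨j, hI⟩, ex_mem ⟨j, hI⟩]
    exact hxy _ ((mem_mp (i := ⟨j, hI⟩)).mp hj)
  avg := by
    intro C i hi y
    unfold tr
    have h1 : i.1 ∉ mp C := fun h => hi (mem_mp.mp h)
    rw [mp_insert]
    simp_rw [ex_update]
    exact F.avg (mp C) i.1 h1 (ex I x₀ y)

lemma hh_tr (I : Finset ι) (x₀ : ∀ i, V i) (B : Finset {i // i ∈ I})
    (y : ∀ i : {i // i ∈ I}, V i.1) : hh (tr I x₀ g) B y = hh g (mp B) (ex I x₀ y) := by
  unfold hh
  rw [mp_powerset B]
  refine sum_congr rfl fun C _ => ?_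
  rw [mp_card, mp_card]
  rfl

lemma gr_tr (I : Finset ι) (x₀ : ∀ i, V i) :
    H685.gr (tr I x₀ g) univ = tr I x₀ (H685.gr g I) := by
  funext C y
  show g (mp (C ∩ univ)) (ex I x₀ y) = g (mp C ∩ I) (ex I x₀ y)
  rw [inter_univ, inter_eq_left.mpr (mp_sub C)]

lemma gp_tr (I : Finset ι) (x₀ : ∀ i, V i) (S : Finset {i // i ∈ I})
    (u : ∀ i : {i // i ∈ I}, V i.1) :
    gp (tr I x₀ g) S u = tr I x₀ (gp g (mp S) (ex I x₀ u)) := by
  funext C y
  unfold gp tr
  rw [mp_union, ex_ov]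

/-- energies of the transported family -/
lemma WW_tr (hw1 : ∀ i, ∑ a, w i a = 1) {I : Finset ι} (x₀ : ∀ i, V i)
    (hg : ∀ C x, g C x = g (C ∩ I) x) (hl : ∀ C, Loc I (g C)) (l : ℕ) :
    WW (fun i : {i // i ∈ I} => w i.1) (tr I x₀ g) l = WW w g l := by
  have h0 : g = H685.gr g I := by funext C x; exact hg C x
  have h1 : WW w g l = ∑ U ∈ powersetCard l I, ∑ x, pw w x * hh g U x ^ 2 := by
    conv_lhs => rw [h0]
    rw [WW_gr_eq]
  have h2 : WW (fun i : {i // i ∈ I} => w i.1) (tr I x₀ g) l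
      = ∑ U ∈ powersetCard l (univ : Finset {i // i ∈ I}), ∑ y,
        pw (fun i : {i // i ∈ I} => w i.1) y * hh (tr I x₀ g) U y ^ 2 := by
    rw [← WW_gr_eq, gr_tr, ← h0]
  rw [h1, h2, ← mp_univ I, mp_powersetCard]
  rw [mp_univ]
  refine sum_congr rfl fun U _ => ?_
  have hW : ∀ i, i ∉ I → ∑ a, w i a = 1 := fun i _ => hw1 i
  have h3 := sum_res hW x₀ (F := fun x => hh g (mp U) x ^ 2) (by
    intro x y hxy
    show hh g (mp U) x ^ 2 = hh g (mp U) y ^ 2
    have : hh g (mp U) x = hh g (mp U) y := by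
      unfold hh
      exact sum_congr rfl fun C _ => by rw [hl C x y hxy]
    rw [this])
  unfold Ab.pw
  rw [h3]
  refine sum_congr rfl fun y _ => ?_
  rw [hh_tr]

/-- functions of one coordinate, extended by zero -/
def exf (I : Finset ι) (f : ∀ i : {i // i ∈ I}, V i.1 → ℂ) (i : ι) (b : V i) : ℂ :=
  if h : i ∈ I then f ⟨i, h⟩ b else 0

lemma exf_mem {I : Finset ι} {f : ∀ i : {i // i ∈ I}, V i.1 → ℂ} (i : {i // i ∈ I}) (b : V i.1) :
    exf I f i.1 b = f i b := by
  unfold exf; rw [dif_pos i.2]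

lemma exf_notMem {I : Finset ι} {f : ∀ i : {i // i ∈ I}, V i.1 → ℂ} {i : ι} (h : i ∉ I)
    (b : V i) : exf I f i b = 0 := by
  unfold exf; rw [dif_neg h]

/-- **Theorem H**, the numbers only see the sites in `I`. -/
theorem thmH_I (F : PFam w g m)
    (I : Finset ι) {e q : ℕ} (he : 1 ≤ e) (hq : Even q) (hI : 1 ≤ I.card)
    {P R R0 K G C1 : ℝ} (hP : 1 ≤ P) (hR0 : 1 ≤ R0) (hR : 2 * R0 ≤ R) (hG : 1 ≤ G) (hC : 1 ≤ C1)
    (hK : 0 < K) (hmK : m ≤ K) (heG : (e : ℝ) ≤ G)
    (hlo : Real.log (∑ i ∈ I, Fintype.card (V i) : ℕ) ≤ G) (hlk : Real.log (3 * I.card) ≤ G)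
    (hOm : ((∑ i ∈ I, Fintype.card (V i) : ℕ) : ℝ) ≤ P ^ (2 * C1))
    (hGP : 16 * G ^ 2 ≤ P ^ (2 / 3 : ℝ))
    (hql : P ^ (2 / 3 : ℝ) ≤ 2 * (q : ℝ)) (hqu : 2 * (q : ℝ) ≤ 8 * P ^ (2 / 3 : ℝ))
    (LI : ∀ l ≤ q * e, WW w (H685.gr g I) l ≤ K ^ 2 * ((R * P) ^ l / (l.factorial : ℝ)))
    (PH : ∀ S ⊆ I, ∀ d, S.card + d ≤ e → ∀ u : ∀ i, V i,
      WW w (gp (H685.gr g I) S u) d ≤ (K * R0 ^ S.card) ^ 2 * (R * P) ^ d)
    (INJ : ∀ S ⊆ I, S.card ≤ e → ∀ u : ∀ i, V i, ∀ f : ∀ i, V i → ℂ, (∀ i, i ∉ I → f i = 0) →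
      ∑ i, ∑ b, w i b * ‖f i b‖ ^ 2 ≤ 1 →
      ‖∑ E ∈ powersetCard (e - S.card) (I \ S), ∑ x, (pw w x : ℂ) *
        ((hh g (S ∪ E) (ov S u x) : ℂ) * ∏ i ∈ E, f i (x i))‖ ≤ K * R ^ e) :
    WW w (H685.gr g I) e ≤ K ^ 2 * (1440 * G * R ^ 2 * P ^ (1 - 1 / (12 * C1))) ^ e := by
  classical
  have hne : ∀ i, Nonempty (V i) := by
    intro i
    by_contra hc
    rw [not_nonempty_iff] at hc
    have := F.w_sum i
    simp at this
  obtain ⟨x₀⟩ : Nonempty (∀ i, V i) := ⟨fun i => (hne i).some⟩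
  have hw1 := F.w_sum
  have hcard : Fintype.card (Σ i : {i // i ∈ I}, V i.1) = ∑ i ∈ I, Fintype.card (V i) := by
    rw [Fintype.card_sigma]
    exact sum_coe_sort I fun i => Fintype.card (V i)
  have hIc : (univ : Finset {i // i ∈ I}).card = I.card := by
    rw [univ_eq_attach, card_attach]
  -- restricted families only see the sites in I
  have gI : ∀ C x, H685.gr g I C x = H685.gr g I (C ∩ I) x := by
    intro C x; unfold H685.gr; rw [inter_assoc, inter_self]
  have lI : ∀ C, Loc I (H685.gr g I C) := fun C => (F.loc (C ∩ I)).mono inter_subset_right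
  have key : WW (fun i : {i // i ∈ I} => w i.1) (H685.gr (tr I x₀ g) univ) e
      ≤ K ^ 2 * (1440 * G * R ^ 2 * P ^ (1 - 1 / (12 * C1))) ^ e := by
    refine H121.thmH (pfam_tr F I x₀) univ he hq (by rw [hIc]; exact hI) hP hR0 hR hG hC hK hmK
      heG (by rw [hcard]; exact hlo) (by rw [hIc]; exact hlk) (by rw [hcard]; exact hOm) hGP hql
      hqu ?_ ?_ ?_
    · intro l hl
      rw [gr_tr, WW_tr hw1 x₀ gI lI]
      exact LI l hl
    · intro S _ d hSd u
      rw [gr_tr, gp_tr, WW_tr hw1 x₀]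
      · have := PH (mp S) (mp_sub S) d (by rw [mp_card]; exact hSd) (ex I x₀ u)
        rw [mp_card] at this
        exact this
      · intro C x
        unfold gp H685.gr
        congr 1
        ext j
        simp only [mem_inter, mem_union]
        tauto
      · intro C x y hxy
        unfold gp H685.gr
        refine F.loc _ _ _ fun j hj => ?_
        have hjI := (mem_inter.mp hj).2
        unfold H685.ov
        split_ifs
        · rfl
        · exact hxy j hjI
    · intro S _ hSe u f _ hf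
      have h1 := INJ (mp S) (mp_sub S) (by rw [mp_card]; exact hSe) (ex I x₀ u)
        (exf I f) (fun i hi => by funext b; exact exf_notMem hi b) ?_
      · refine le_trans (le_of_eq ?_) h1
        congr 1
        rw [mp_card]
        have hsd : I \ mp S = mp (univ \ S) := by rw [mp_sdiff, mp_univ]
        rw [hsd, mp_powersetCard]
        refine sum_congr rfl fun E hE => ?_
        have hWc : ∀ i, i ∉ I → ∑ a, ((w i a : ℝ) : ℂ) = 1 := fun i _ => by
          rw [← Complex.ofReal_sum, hw1 i, Complex.ofReal_one]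
        have h3 := sum_res (W := fun i a => ((w i a : ℝ) : ℂ)) hWc x₀
          (F := fun x => (hh g (mp S ∪ mp E) (ov (mp S) (ex I x₀ u) x) : ℂ)
            * ∏ i ∈ mp E, exf I f i (x i)) (by
          intro x y hxy
          have e1 : hh g (mp S ∪ mp E) (ov (mp S) (ex I x₀ u) x)
              = hh g (mp S ∪ mp E) (ov (mp S) (ex I x₀ u) y) := by
            refine H685.hh_loc F.loc _ _ _ fun j hj => ?_
            have hjI : j ∈ I := union_subset (mp_sub S) (mp_sub E) hj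
            unfold H685.ov
            split_ifs
            · rfl
            · exact hxy j hjI
          have e2 : ∏ i ∈ mp E, exf I f i (x i) = ∏ i ∈ mp E, exf I f i (y i) :=
            prod_congr rfl fun i hi => by rw [hxy i (mp_sub E hi)]
          rw [e1, e2])
        have h4 : ∀ x, (Ab.pw w x : ℂ) = ∏ i, ((w i (x i) : ℝ) : ℂ) := fun x => by
          unfold Ab.pw; push_cast; rfl
        have h5 : ∀ y : ∀ i : {i // i ∈ I}, V i.1,
            (Ab.pw (fun i : {i // i ∈ I} => w i.1) y : ℂ)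
              = ∏ i : {i // i ∈ I}, ((w i.1 (y i) : ℝ) : ℂ) := fun y => by
          unfold Ab.pw; push_cast; rfl
        simp_rw [h4, h5]
        rw [h3]
        refine sum_congr rfl fun y _ => ?_
        congr 1
        rw [hh_tr, mp_union, ex_ov]
        congr 1
        unfold mp
        rw [prod_map]
        refine prod_congr rfl fun i _ => ?_
        show f i (y i) = exf I f i.1 (ex I x₀ y i.1)
        rw [ex_mem, exf_mem]
      · refine le_trans (le_of_eq ?_) hf
        have h6 : ∀ i, i ∉ I → ∑ b, w i b * ‖exf I f i b‖ ^ 2 = 0 := by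
          intro i hi
          refine sum_eq_zero fun b _ => ?_
          rw [exf_notMem hi]
          simp
        rw [← sum_subset (subset_univ I) fun i _ hi => h6 i hi, ← sum_coe_sort I]
        refine sum_congr rfl fun i _ => sum_congr rfl fun b _ => ?_
        rw [exf_mem]
  rw [gr_tr, WW_tr hw1 x₀ gI lI] at key
  exact key

end

end Vale.Agent.P042.H104
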